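import Vale.Agent.P183M.IF
import Vale.Agent.P183LT.Ramsey
import Vale.Agent.P183NC.Ord

/-!
The Ramsey lemma for pairs of nodes.
-/

namespace Vale.Agent.P183S1

open Vale.Agent.P183NK Vale.Agent.P183M

variable {L : Type} [Lattice L]

theorem PR_mono {m j : ℕ} {E : L → L → L → L → Prop} : ∀ {r : ℕ} {P P' : L → L → Prop},
    (∀ u z, P u z → P' u z) → ∀ u z, PR m j E r P u z → PR m j E r P' u z
  | 0, _, _, h => h
  | _ + 1, _, _, h => fun u z k =>
    ⟨h u z k.1, k.2.mono (PR_mono fun u' z' k' => ⟨h u' z' k'.1, k'.2⟩)⟩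

/-- a chain of pairwise unrelated nodes -/
def Ch (P : L → L → Prop) (E : L → L → L → L → Prop) (l : ℕ) (a b : L) : Prop :=
  ∃ u z : Fin (l + 1) → L, (∀ i, a ≤ u i ∧ u i < z i ∧ z i ≤ b ∧ P (u i) (z i)) ∧
    ∀ i i', i < i' → u i' ≤ u i ∧ z i < z i' ∧ ¬ E (u i) (z i) (u i') (z i')

theorem Ch.mono {P P' : L → L → Prop} {E : L → L → L → L → Prop} {l : ℕ} {a b a' b' : L}
    (h : Ch P E l a b) (hP : ∀ u z, P u z → P' u z) (ha : a' ≤ a) (hb : b ≤ b') : Ch P' E l a' b' :=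
  let ⟨u, z, h1, h2⟩ := h
  ⟨u, z, fun i => ⟨ha.trans (h1 i).1, (h1 i).2.1, (h1 i).2.2.1.trans hb, hP _ _ (h1 i).2.2.2⟩, h2⟩

theorem Ch.snoc {P : L → L → Prop} {E : L → L → L → L → Prop} {l : ℕ} {a b : L}
    (h : Ch (fun u z => P u z ∧ z < b ∧ ¬ E u z a b) E l a b) (hab : a < b) (hP : P a b) :
    Ch P E (l + 1) a b := by
  obtain ⟨u, z, h1, h2⟩ := h
  refine ⟨Fin.snoc u a, Fin.snoc z b, fun i => ?_, fun i i' => ?_⟩
  · refine Fin.lastCases ?_ (fun i => ?_) i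
    · simp [hab, hP]
    · simpa using ⟨(h1 i).1, (h1 i).2.1, (h1 i).2.2.1, (h1 i).2.2.2.1⟩
  · refine Fin.lastCases (fun k => absurd k (Fin.le_last _).not_gt) (fun i => ?_) i
    refine Fin.lastCases (fun _ => ?_) (fun i' k => ?_) i'
    · simpa using ⟨(h1 i).1, (h1 i).2.2.2.2⟩
    · simpa using h2 i i' (Fin.castSucc_lt_castSucc_iff.1 k)

theorem rm_aux {m j : ℕ} (hm : 0 < m) (r : ℕ) : ∀ l : ℕ, ∃ M K : ℕ, 0 < M ∧
    ∀ (L : Type) [Lattice L] (P : L → L → Prop) (E : L → L → L → L → Prop) (a b : L),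
      MT M P K a b → MT m (PR m j E r P) j a b ∨ Ch P E l a b := by
  induction r with
  | zero => exact fun _ => ⟨m, j, hm, fun _ _ _ _ _ _ h => Or.inl h⟩
  | succ r ih =>
  intro l
  induction l with
  | zero =>
    refine ⟨1, 1, one_pos, fun L _ P E a b ⟨a', b', c, z, u, h1, _, h3, _, h5⟩ => Or.inr ?_⟩
    obtain ⟨-, k1, k2, k3, k4⟩ := h5 0
    exact ⟨fun _ => u 0, fun _ => z 0, fun _ => ⟨h1.trans k1, k3, k4.lt.le.trans h3, k2⟩,
      fun i i' k => absurd k (by omega)⟩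
  | succ l ih' =>
  obtain ⟨M1, K1, p1, h1⟩ := ih (l + 1)
  obtain ⟨M2, K2, p2, h2⟩ := ih'
  obtain ⟨M, K, pM, h3⟩ : ∃ M K : ℕ, 0 < M ∧ ∀ (L : Type) [Lattice L] (P : Fin 2 → L → L → Prop)
      (a b : L), MT M (fun u z => ∃ F, P F u z) K a b → ∃ F, MT (M1 + M2) (P F) (K1 + K2) a b :=
    ⟨_, 2 * (K1 + K2) + 1, Nat.succ_pos _, fun _ _ P a b h =>
      P183LT.ramsey_aux (by omega) P _ (fun _ => K1 + K2) (by simp) a b h⟩
  refine ⟨M + m, j + K, by omega, fun L _ P E a b h => ?_⟩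
  by_contra hc
  rw [not_or] at hc
  have node : ∀ u z, a ≤ u → z ≤ b → P u z → MT (M + m) P K u z → PR m j E (r + 1) P u z := by
    intro u z a1 a2 a3 a4
    obtain ⟨F, hF⟩ := h3 L ![fun u' z' => P u' z' ∧ E u' z' u z,
      fun u' z' => P u' z' ∧ z' < z ∧ ¬ E u' z' u z] u z
      ((a4.mono_m pM (by omega)).mono_in (fun u' z' _ _ k1 k2 => by
        by_cases k : E u' z' u z
        · exact ⟨0, k2, k⟩
        · exact ⟨1, k2, k1, k⟩) le_rfl le_rfl)
    fin_cases F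
    · exact ⟨a3, (h1 L _ E u z ((hF.mono_m p1 (by omega)).of_le (by omega))).resolve_right
        fun k => hc.2 (k.mono (fun _ _ k => k.1) a1 a2)⟩
    · rcases h2 L _ E u z ((hF.mono_m p2 (by omega)).of_le (by omega)) with k | k
      · exact (hc.1 ((k.mono (PR_mono fun _ _ k => k.1)).widen a1 a2)).elim
      · exact (hc.2 ((k.snoc a4.lt a3).mono (fun _ _ k => k) a1 a2)).elim
  have key : ∀ n a' b', a ≤ a' → b' ≤ b → MT (M + m) P (n + K) a' b' →
      MT (M + m) (PR m j E (r + 1) P) n a' b' := by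
    intro n
    induction n with
    | zero => exact fun _ _ _ _ k => k.lt
    | succ n ihn =>
      intro a' b' a1 a2 k
      rw [Nat.add_right_comm] at k
      obtain ⟨x, y, c, z, u, k1, k2, k3, k4, k5⟩ := k
      refine ⟨x, y, c, z, u, k1, k2, k3, k4, fun i => ?_⟩
      obtain ⟨e1, e2, e3, e4, e5⟩ := k5 i
      have f1 : a ≤ u i := (a1.trans k1).trans e2
      have f2 : z i ≤ b := e5.lt.le.trans (k3.trans a2)
      exact ⟨e1, e2, node _ _ f1 f2 e3 (e4.of_le (by omega)), ihn _ _ f1 f2 e4,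
        ihn _ _ (f1.trans e4.lt.le) (k3.trans a2) e5⟩
  exact hc.1 ((key j a b le_rfl le_rfl h).mono_m hm (by omega))

theorem rm : RM := fun _ _ r l hm => rm_aux hm r l

end Vale.Agent.P183S1
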