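import Vale.Agent.P183S1.Wst
import Vale.Agent.P183M.Cvl

/-!
There is no long chain in which no pair is of end type.
-/

set_option linter.unusedSectionVars false
set_option linter.unusedVariables false

namespace Vale.Agent.P183S1

open Matrix Subgroup Vale.Agent.P240.H195 Vale.Agent.P183CR Vale.Agent.P183M

variable {G G' G'' G''' : Type} [Group G] [Finite G] [Group G'] [Finite G'] [Group G''] [Finite G'']
  [Group G'''] [Finite G'''] {p d d' d'' d''' : ℕ} {F0 F0' F0'' F0''' : Type} [Field F0] [Field F0']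
  [Field F0''] [Field F0''']

section gen

variable {R R' : Type} [CommRing R] [CommRing R'] {D : Dat G R F0 d} {D' : Dat G' R' F0' d'}

/-- the node `t` moves the highest weight line -/
def Sp (D : Dat G R F0 d) (D' : Dat G' R' F0' d') (ψ : G →* G') (t : ℕ) : Prop :=
  ∃ g, Cj D.U D'.U ψ g ∧ D.nd t ∉ LS (D'.ρ.comp ψ) (D'.ρ g *ᵥ ee D'.z)

lemma exists_sp (h : CD p D) (h' : CD p D') {ψ : G →* G'} (k : ¬ EndPair D D' ψ) :
    ∃ t < D.rk, 0 < t ∧ (D.lty → t + 1 < D.rk) ∧ Sp D D' ψ t := by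
  obtain ⟨g, hg⟩ := exists_cj' h.sba h'.sba ψ
  by_contra hc
  exact k ⟨g, hg, fun i h1 h2 h3 => not_not.1 fun e => hc ⟨i, h1, h2, h3, g, hg, e⟩⟩

end gen

lemma TrF.mono {m i : ℕ} {dt : Prop} {S S' T T' : ℕ → Prop} (h : TrF m dt S S' i)
    (k : ∀ t, T t → S t) (k' : ∀ t, S' t → T' t) : TrF m dt T T' i where
  mid t a b := ⟨k' _ (h.mid t (k t a) b).1, fun c => k' _ ((h.mid t (k t a) b).2 c)⟩
  uniq t t' a b := h.uniq t t' (k t a) (k t' b)
  tail t a b c e := let ⟨s, h1, h2⟩ := h.tail t (k t a) b c e; ⟨s, h1, k' s h2⟩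
  two a b := k' _ (h.two a (k _ b))

lemma Sp.ns {R K : Type} [CommRing R] [Field K] {D : Dat G R F0 d} {D' : Dat G' K F0' d'}
    {ψ : G →* G'} {t : ℕ} (h' : CD p D') (k : Sp D D' ψ t) : NS D.U (D'.ρ.comp ψ) (D.nd t) :=
  let ⟨g, h1, h2⟩ := k
  ⟨_, vec_ne (ee_ne0 _) g, h1.fix fun _ hu => h'.fix_z hu, h2⟩

lemma NS.sp {R K : Type} [CommRing R] [Field K] {D : Dat G R F0 d} {D' : Dat G' K F0' d'}
    {ψ : G →* G'} {t : ℕ} (h : CD p D) (h' : CD p D') (hρ : AI (D'.ρ.comp ψ))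
    (k : NS D.U (D'.ρ.comp ψ) (D.nd t)) : Sp D D' ψ t := by
  have := h'.char
  obtain ⟨g, hg⟩ := exists_cj' h.sba h'.sba ψ
  exact ⟨g, hg, k.not_mem h.sba hρ (hg.fix fun _ hu => h'.fix_z hu) (vec_ne (ee_ne0 _) g)⟩

lemma rk_eq {R : Type} [CommRing R] {D : Dat G R F0 d} (k : Kind p R D) (l : ¬ D.lty) :
    D.rk = D.m := by
  cases k with
  | f h => exact h.rk_eq
  | l h => exact absurd h.il l

lemma datF {F K L : Type} [Field F] [Field K] [Field L] {D : Dat G F F0 d}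
    {D' : Dat G' K F0' d'} {D'' : Dat G'' L F0'' d''} (h : CDF p D) (h' : CDF p D')
    (h'' : CDF p D'') (hm : 6 ≤ D.m)
    (hm' : 4 ≤ D'.m) {ψ : G →* G'} {χ : G' →* G''} (h1 : AI (D'.ρ.comp ψ))
    (h2 : AI (D''.ρ.comp (χ.comp ψ))) {i : ℕ} (h3 : 0 < i) (h4 : i < D'.m) (h5 : Sp D' D'' χ i) :
    TrF D.m D.dty (Sp D D' ψ) (Sp D D'' (χ.comp ψ)) i :=
  have := h'.char
  have := h''.char
  (trF h h' hm hm' h1 (τ := D''.ρ.comp χ) h2 h3 h4 (h5.ns h''.toCD)).mono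
    (fun t => Sp.ns h'.toCD) fun t => NS.sp h.toCD h''.toCD h2

theorem kindF {R R' R'' : Type} [CommRing R] [CommRing R'] [CommRing R''] {D : Dat G R F0 d}
    {D' : Dat G' R' F0' d'} {D'' : Dat G'' R'' F0'' d''} (k : Kind p R D) (k' : Kind p R' D')
    (k'' : Kind p R'' D'') (l : ¬ D.lty) (l' : ¬ D'.lty) (l'' : ¬ D''.lty) (hm : 6 ≤ D.m)
    (hm' : 4 ≤ D'.m) {ψ : G →* G'} {χ : G' →* G''} (h1 : AI (D'.ρ.comp ψ))
    (h2 : AI (D''.ρ.comp (χ.comp ψ))) {i : ℕ} (h3 : 0 < i) (h4 : i < D'.m) (h5 : Sp D' D'' χ i) :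
    TrF D.m D.dty (Sp D D' ψ) (Sp D D'' (χ.comp ψ)) i := by
  cases k with
  | l h => exact absurd h.il l
  | f h =>
  cases k' with
  | l h' => exact absurd h'.il l'
  | f h' =>
  cases k'' with
  | l h'' => exact absurd h''.il l''
  | f h'' =>
  exact datF h h' h'' hm hm' h1 h2 h3 h4 h5

lemma chainF (m : Fin 7 → ℕ) (dt : Fin 7 → Prop) (S : Fin 7 → Fin 7 → ℕ → Prop)
    (hm : ∀ i, 8 ≤ m i) (h1 : ∀ i j, i < j → ∃ t < m i, 0 < t ∧ S i j t)
    (h2 : ∀ i j k t, i < j → j < k → 0 < t → t < m j → S j k t →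
      TrF (m i) (dt i) (S i j) (S i k) t) : False := by
  have h3 : ∀ i j k, i < j → j < k → ∃ s, TrF (m i) (dt i) (S i j) (S i k) s := fun i j k a b =>
    let ⟨t, c1, c2, c3⟩ := h1 j k b
    ⟨t, h2 i j k t a b c2 c1 c3⟩
  have key : ∀ i j : Fin 7, i < j → j < 3 → ∀ t, 2 ≤ t → t < m i → ¬ S i j t := by
    intro i j a b t c1 c2 c3
    have := hm i
    have a3 : i < 3 := a.trans b
    have a4 : i < 4 := a3.trans (by decide)
    have a5 : i < 5 := a4.trans (by decide)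
    obtain ⟨_, r3⟩ := h3 i j 3 a b
    obtain ⟨_, r4⟩ := h3 i 3 4 a3 (by decide)
    obtain ⟨_, r5⟩ := h3 i 4 5 a4 (by decide)
    obtain ⟨_, r6⟩ := h3 i 5 6 a5 (by decide)
    obtain ⟨t3, d1, d2⟩ : ∃ t, MidN (m i) (dt i) t ∧ S i 3 t := by
      by_cases e : MidN (m i) (dt i) t
      · by_cases e' : t = 2
        · exact ⟨t + 1, ⟨by omega, by omega, fun _ => by omega⟩, (r3.mid t c3 e).2 (by omega)⟩
        · exact ⟨t - 1, ⟨by omega, by omega, fun k => by have := e.2.2 k; omega⟩, (r3.mid t c3 e).1⟩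
      · exact r3.tail t c3 c1 c2 e
    have d3 := d1.1
    have d4 := d1.2.1
    obtain ⟨t4, e1, e2, e3⟩ : ∃ t, 3 ≤ t ∧ MidN (m i) (dt i) (t + 1) ∧ S i 4 t := by
      by_cases e' : t3 ≤ 3
      · exact ⟨t3 + 1, by omega, ⟨by omega, by omega, fun _ => by omega⟩,
          (r4.mid t3 d2 d1).2 (by omega)⟩
      · exact ⟨t3 - 1, by omega, by rwa [Nat.sub_add_cancel (by omega)], (r4.mid t3 d2 d1).1⟩
    have e4 := e2.2.1
    have e5 := r5.mid t4 e3 ⟨by omega, by omega, fun k => by have := e2.2.2 k; omega⟩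
    have := r6.uniq _ _ e5.1 (e5.2 (by omega))
      ⟨by omega, by omega, fun k => by have := e2.2.2 k; omega⟩ e2
    omega
  obtain ⟨s, a1, a2, a3⟩ := h1 0 1 (by decide)
  obtain ⟨t, b1, b2, b3⟩ := h1 1 2 (by decide)
  by_cases e : 2 ≤ s
  · exact key 0 1 (by decide) (by decide) s e a1 a3
  by_cases e' : 2 ≤ t
  · exact key 1 2 (by decide) (by decide) t e' b1 b3
  have := hm 0
  exact key 0 2 (by decide) (by decide) 2 le_rfl (by omega)
    ((h2 0 1 2 t (by decide) (by decide) b2 b1 b3).two (by omega) ((show s = 1 by omega) ▸ a3))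

section lin

variable {F K : Type} [Field F] [Field K] {D : Dat G (F × F) F0 d} {D' : Dat G' (K × K) F0' d'}

lemma charL (h : CDL p D) : CharP F p :=
  have := h.char
  ((RingHom.id F).prod (RingHom.id F)).charP (fun _ _ k => congrArg Prod.fst k) p

lemma ai1 {ψ : G →* G'} (h : AI (D'.ρ.comp ψ)) : AI (D'.ρ1.comp ψ) := h.tw (RingHom.fst K K)

lemma nonend (h : CDL p D) (h' : CDL p D') {ψ : G →* G'} (hρ : AI (D'.ρ.comp ψ))
    (k : ¬ EndPair D D' ψ) : ∃ t, 1 ≤ t ∧ t + 3 ≤ d ∧ NS D.U (D'.ρ1.comp ψ) (D.nd t) := by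
  have := charL h'
  obtain ⟨t, h1, h2, h3, g, hg, h4⟩ := exists_sp h.toCD h'.toCD k
  have h5 := h3 h.il
  have h6 := h.rk_eq
  set Y := D'.ρ g *ᵥ ee D'.z with hY
  have fY := hg.fix (τ := D'.ρ) fun u hu => h'.toCD.fix_z hu
  let v : Fin d' → K := fun a => (Y a).1
  let f : (Fin d' → K × K) → Module.Dual K (Fin d' → K) := fun y =>
    dotProductBilin K K fun a => (D'.J a a.rev).2 * (y a.rev).2
  have e0 : ∀ y x, f y (fun a => (x a).1) = (D'.β x y).2 := fun y x => by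
    rw [P183K.Lift.CDL.β_snd h']
    exact dotProduct_comm _ fun a => (x a).1
  have e1 : ∀ s x, (mrep (D'.ρ1.comp ψ)) s (fun a => (x a).1) = fun a => ((D'.ρ (ψ s) *ᵥ x) a).1 :=
    fun s x => funext fun a => (P183K.Lift.fst_mulVec D' _ x a).symm
  have e2 : ∀ s y, (mrep (D'.ρ1.comp ψ)).dual s (f y) = f (D'.ρ (ψ s) *ᵥ y) := fun s y =>
    LinearMap.ext fun x => by
      have := e1 s⁻¹ fun a => (x a, 0)
      rw [dual_app, this, e0, map_inv, ← h'.toCD.inv'', ← e0]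
  have e3 : ∀ y a, f y (ee a) = (D'.J a a.rev).2 * (y a.rev).2 := fun y a => by
    simp [f, ee]
  have e4 : ∀ θ : K × K →+* K, (fun a => θ (Y a)) ≠ 0 := fun θ => by
    rw [hY, ← map_mulVec', map_ee]
    exact vec_ne (τ := tw θ D'.ρ) (ee_ne0 _) g
  have hv : v ∈ fixS (mrep (D'.ρ1.comp ψ)) D.U := fun u hu =>
    (e1 u Y).trans (funext fun a => congrArg (fun y => (y a).1) (fY u hu))
  have hv0 : v ≠ 0 := e4 (RingHom.fst K K)
  have md : Md1 D.B D.U (mrep (D'.ρ1.comp ψ)) v (f Y) :=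
    ⟨h.sba.good_of_absIrr ((ai1 hρ).absIrr (pos_of_ne hv0)), hv, hv0,
      fun u hu => (e2 u Y).trans (congrArg f (fY u hu)), fun e =>
      e4 (RingHom.snd K K) (funext fun a => by
        have := e3 Y a.rev
        rw [e, LinearMap.zero_apply] at this
        simpa using (mul_eq_zero.1 this.symm).resolve_left (P183K.Lift.CDL.J2_ne h' _))⟩
  by_cases c1 : D.nd t ∈ lineStab (mrep (D'.ρ1.comp ψ)) v
  · refine ⟨d - t - 2, by omega, by omega, v, hv0, hv, dual_nd' h md (t := t) ?_ (by omega)⟩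
    rintro ⟨c', hc'⟩
    obtain ⟨c, hc⟩ := c1
    refine h4 ⟨MulEquiv.prodUnits.symm (c, c'), funext fun a => Prod.ext ?_ ?_⟩
    · exact congrFun ((e1 _ Y).symm.trans hc) a
    · have := LinearMap.congr_fun ((e2 _ Y).symm.trans hc') (ee a.rev)
      rw [LinearMap.smul_apply, e3, e3, smul_eq_mul, mul_left_comm] at this
      have := mul_left_cancel₀ (P183K.Lift.CDL.J2_ne h' _) this
      rwa [Fin.rev_rev] at this
  · exact ⟨t, h2, by omega, v, hv0, hv, c1⟩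

end lin

lemma datL {F K L M : Type} [Field F] [Field K] [Field L] [Field M]
    {D : Dat G (F × F) F0 d} {D' : Dat G' (K × K) F0' d'} {D'' : Dat G'' (L × L) F0'' d''}
    {D''' : Dat G''' (M × M) F0''' d'''} (h : CDL p D) (h' : CDL p D') (h'' : CDL p D'')
    (h''' : CDL p D''')
    (hm : 3 ≤ D.m) {ψ : G →* G'} {χ : G' →* G''} {ω : G'' →* G'''} (h1 : AI (D'.ρ.comp ψ))
    (h2 : AI (D''.ρ.comp (χ.comp ψ))) (h3 : AI (D'''.ρ.comp (ω.comp (χ.comp ψ))))
    (e1 : ¬ EndPair D D' ψ) (e2 : ¬ EndPair D' D'' χ) (e3 : ¬ EndPair D'' D''' ω) : False := by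
  have := charL h'
  have := charL h''
  have := charL h'''
  have := h.le_d
  obtain ⟨t, a1, a2, a3⟩ := nonend h h' h1 e1
  have g1 := ai1 h1
  have g2 := ai1 h2
  have g3 := ai1 h3
  rw [← MonoidHom.comp_assoc] at h2 h3 g3
  obtain ⟨t', b1, b2, b3⟩ := nonend h' h'' h2.of_comp e2
  obtain ⟨t'', c1, c2, c3⟩ := nonend h'' h''' h3.of_comp e3
  have r := trL h h'' g2 g3 c1 c2 c3
  rw [← MonoidHom.comp_assoc] at g2 r
  obtain ⟨s, s1, s2, s3⟩ := (trL h h' g1 g2 b1 b2 b3 t a3 a1 a2).1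
  by_cases e : s = 0
  · have := (r _ s3 (by omega) (by omega)).2 s (by omega) s2
    omega
  · have := (r _ s2 (by omega) (by omega)).2 _ (by omega) s3
    omega

theorem kindL {R R' R'' R''' : Type} [CommRing R] [CommRing R'] [CommRing R''] [CommRing R''']
    {D : Dat G R F0 d} {D' : Dat G' R' F0' d'} {D'' : Dat G'' R'' F0'' d''}
    {D''' : Dat G''' R''' F0''' d'''} (k : Kind p R D) (k' : Kind p R' D') (k'' : Kind p R'' D'')
    (k''' : Kind p R''' D''') (l : D.lty) (l' : D'.lty) (l'' : D''.lty) (l''' : D'''.lty)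
    (hm : 3 ≤ D.m) {ψ : G →* G'} {χ : G' →* G''} {ω : G'' →* G'''} (h1 : AI (D'.ρ.comp ψ))
    (h2 : AI (D''.ρ.comp (χ.comp ψ))) (h3 : AI (D'''.ρ.comp (ω.comp (χ.comp ψ))))
    (e1 : ¬ EndPair D D' ψ) (e2 : ¬ EndPair D' D'' χ) (e3 : ¬ EndPair D'' D''' ω) : False := by
  cases k with
  | f h => exact h.nl l
  | l h =>
  cases k' with
  | f h' => exact h'.nl l'
  | l h' =>
  cases k'' with
  | f h'' => exact h''.nl l''
  | l h'' =>
  cases k''' with
  | f h''' => exact h'''.nl l'''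
  | l h''' =>
  exact datL h h' h'' h''' hm h1 h2 h3 e1 e2 e3

theorem s1 : S1 := by
  refine ⟨8, 6, fun p G _ T C ψ hm hl ho ha => ?_⟩
  by_contra hc
  have h1 : ∀ i j h, ¬ EndPair (C i).D (C j).D (ψ i j h) := fun i j h e => hc ⟨i, j, h, e⟩
  have h2 : ∀ i j k h h', (ψ j k h').comp (ψ i j h) = ψ i k (h.trans h') := fun i j k h h' =>
    ((ho j k h').comp (ho i j h)).uniq (ho _ _ _)
  by_cases l : (C 0).D.lty
  · refine kindL (C 0).kind (C 1).kind (C 2).kind (C 3).kind l ((hl _ _).1 l) ((hl _ _).1 l)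
      ((hl _ _).1 l) (le_trans (by omega) (hm 0)) (ha _ _ _) ?_ ?_ (h1 0 1 (by decide))
      (h1 1 2 (by decide)) (h1 2 3 (by decide))
    · rw [h2]
      exact ha _ _ _
    · rw [h2, h2]
      exact ha _ _ _
  · have l' : ∀ i, ¬ (C i).D.lty := fun i e => l ((hl _ _).1 e)
    refine chainF (fun i => (C i).D.m) (fun i => (C i).D.dty)
      (fun i j t => ∃ h, Sp (C i).D (C j).D (ψ i j h) t) (fun i => le_trans (by omega) (hm i))
      (fun i j h => ?_) fun i j k t a b c1 c2 ⟨_, c3⟩ => ?_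
    · obtain ⟨t, a1, a2, -, a3⟩ := exists_sp (C i).cd (C j).cd (h1 i j h)
      exact ⟨t, rk_eq (C i).kind (l' i) ▸ a1, a2, h, a3⟩
    · refine (kindF (C i).kind (C j).kind (C k).kind (l' i) (l' j) (l' k)
        (le_trans (by omega) (hm i)) (le_trans (by omega) (hm j)) (ha i j a) (h2 i j k a b ▸ ha _ _ _)
        c1 c2 c3).mono (fun t ⟨_, e⟩ => e) fun t e => ⟨a.trans b, h2 i j k a b ▸ e⟩

end Vale.Agent.P183S1
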