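import Vale.Agent.P183S1.Zig
import Vale.Agent.P183K.Lift.Base

/-!
The zigzag argument for linear groups.
-/

set_option linter.unusedSectionVars false
set_option linter.unusedVariables false

namespace Vale.Agent.P183S1

open Matrix Subgroup Vale.Agent.P240.H195 Vale.Agent.P183CR Vale.Agent.P183M

variable {d : ℕ} {G : Type} [Group G] [Finite G] {F F0 : Type} [Field F] [Field F0] {p : ℕ}
  {D : Dat G (F × F) F0 d} {K V : Type} [Field K] [AddCommGroup V] [Module K V]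
  {σ : Representation K G V} {v : V} {f : Module.Dual K V} {A : Submodule K V}
  {w w' : Equiv.Perm (Fin d)} {n n' : G} {t : ℕ}

/-- no anisotropic part -/
abbrev No (d : ℕ) : Fin d → Prop := fun _ => False

/-- root patterns of linear groups -/
abbrev Pl (a b i j : Fin d) : Prop := i = a ∧ j = b

lemma mn1 {M : Matrix (Fin d) (Fin d) F} (h : Mon1 M w) : Mn (No d) M w where
  md _ := Iff.rfl
  ne a _ := by
    obtain ⟨c, hc⟩ := h a
    rw [← mulVec_ee M, hc]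
    simp [ee_self]
  zero i a _ h2 := by
    obtain ⟨c, hc⟩ := h a
    rw [← mulVec_ee M, hc]
    simp [ee_ne h2]

lemma frL (h : CDL p D) : Fr p D.B D.N D.U D.S D.ρ1 (No d) Pl where
  sba := h.sba
  ut _ hu := P183K.Lift.CDL.Ut1 h hu
  up' g h1 h2 _ := h.up' g h1 h2
  gen := h.gen.trans (closure_mono fun _ ⟨h1, a, b, h2, h3⟩ => ⟨h1, a, b, h2, id, id, h3⟩)
  monT t h1 h2 := mn1 (h.mon_T t h1 h2)

lemma le_lt (h : CDL p D) {P : Subgroup G} (hB : D.B ≤ P) {i : ℕ} (hP : D.nd i ∉ P) :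
    P ≤ SC D.ρ1 fun a => a.val < i + 1 := by
  refine (frL h).le_SC (fun _ _ => id) ((frL h).U_le fun a b k e => Nat.lt_trans k e) hB ?_
  rintro s ⟨j, hj, rfl⟩ hs
  have h1 : j ≠ i := fun k => hP (k ▸ hs)
  have h2 := h.rk_eq
  refine (mn1 (h.mon_nd ⟨j, by omega⟩ ⟨j + 1, by omega⟩ rfl)).mem_SC (fun a ha => ?_) fun _ _ => id
  have := swap_val (⟨j, by omega⟩ : Fin d) ⟨j + 1, by omega⟩ a
  simp only at this
  omega

lemma fxL (h : CDL p D) (hv : v ∈ fixS σ D.U) {s e : Fin d} (hse : s ≤ e)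
    (hn : Mn (No d) (D.ρ1 n) (Equiv.swap s e)) (hA : A ≤ Dm D.U σ v n) {a b : Fin d} (hab : a < b)
    (k : a.val < s ∨ e.val < b) : Fx p D.ρ1 σ A (Pl a b) := by
  have h0 : s.val ≤ e.val := hse
  refine (((frL h).fx hv (fun a => if s.val ≤ a.val ∧ a.val ≤ e.val then s.val else a.val)
    (fun i j k => ?_) (fun _ _ => False.elim) hn fun c => ?_).le hA).mono ?_
  · have : i.val ≤ j.val := k
    split_ifs <;> omega
  · have := swap_val s e c
    split_ifs <;> omega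
  · rintro _ _ ⟨rfl, rfl⟩
    have := Fin.lt_def.1 hab
    split_ifs <;> omega

/-- a weak waist -/
structure WL (U : Subgroup G) (σ : Representation K G V) (A : Submodule K V) : Prop where
  cmp : ∀ x, x ∉ A → A ≤ orbS σ U x
  big : ¬ A ≤ fixS σ U

/-- two transpositions move the highest weight vector out of `A` -/
def HL (D : Dat G (F × F) F0 d) (σ : Representation K G V) (v : V) (A : Submodule K V) (t : ℕ) :
    Prop := ∀ n (a b : Fin d), Mn (No d) (D.ρ1 n) (Equiv.swap a b) →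
      (a.val = 0 ∧ b.val = t) ∨ (a.val + 1 = t ∧ b.val + 1 = d) → σ n v ∉ A

lemma ex_swap (h : CDL p D) (a b : Fin d) : ∃ n, Mn (No d) (D.ρ1 n) (Equiv.swap a b) :=
  let ⟨n, _, k⟩ := h.refl1 a b
  ⟨n, mn1 k⟩

lemma HL.nd (h : CDL p D) (hv : v ∈ fixS σ D.U) (hA : WL D.U σ A) (H : HL D σ v A t) (h1 : 1 ≤ t)
    (h2 : t < d) {i : ℕ} (h3 : i + 1 < d) (h4 : i + 2 = t ∨ i = t) : D.nd i ∉ Stab σ A := by
  intro k
  obtain ⟨z, hz⟩ := ex_swap h ⟨0, by omega⟩ ⟨t, h2⟩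
  obtain ⟨x, hx⟩ := ex_swap h ⟨t - 1, by omega⟩ ⟨d - 1, by omega⟩
  have key : ∀ a b : Fin d, a < b → ¬ (a.val + 1 = t ∧ b.val = t) → Fx p D.ρ1 σ A (Pl a b) := by
    intro a b hab e
    have := Fin.lt_def.1 hab
    by_cases e' : t < b.val
    · exact fxL h hv (Fin.le_def.2 (Nat.zero_le _)) hz
        (hA.cmp _ (H z _ _ hz (Or.inl ⟨rfl, rfl⟩))) hab (Or.inr e')
    · exact fxL h hv (Fin.le_def.2 (by simp; omega)) hx
        (hA.cmp _ (H x _ _ hx (Or.inr (by simp; omega)))) hab (Or.inl (by simp; omega))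
  refine hA.big ((frL h).all fun a b hab _ _ => ?_)
  by_cases e : a.val + 1 = t ∧ b.val = t
  · have h5 := swap_val (⟨i, by omega⟩ : Fin d) ⟨i + 1, h3⟩
    have h6 := h5 a
    have h7 := h5 b
    simp only at h6 h7
    refine (key _ _ (Fin.lt_def.2 ?_) ?_).conj (mn1 (h.mon_nd ⟨i, by omega⟩ ⟨i + 1, h3⟩ rfl)) k
      fun _ _ _ _ k1 k2 k3 => ⟨k2.1 ▸ k1.resolve_right And.left, k2.2 ▸ k3.resolve_right And.left⟩
    all_goals omega
  · exact key a b hab e

variable [CharP K p] [FiniteDimensional K V]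

lemma Md1.dual {B U : Subgroup G} (h : Md1 B U σ v f) :
    Md1 B U σ.dual f (Module.Dual.eval K V v) where
  good := h.good.dual
  hv := h.hf
  hv0 := h.hf0
  hf := fun g hg => LinearMap.ext fun φ => by
    rw [dual_app, Module.Dual.eval_apply, dual_app, inv_inv, h.hv g hg, Module.Dual.eval_apply]
  hf0 := fun h0 => h.hv0 ((Module.forall_dual_apply_eq_zero_iff K v).1 fun φ => by
    simpa using congrArg (fun ψ : Module.Dual K (Module.Dual K V) => ψ φ) h0)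

lemma Md1.le {B N U : Subgroup G} {S : Set G} (h : Md1 B U σ v f) (k : SBA p B N U S) :
    B ≤ lineStab σ v := k.toSBP.le_lineStab h.good h.hv h.hv0

lemma tl (h : CDL p D) (hσ : Md1 D.B D.U σ v f) (hP : D.nd t ∉ lineStab σ v)
    (hn : Mn (No d) (D.ρ1 n) w) (hn' : Mn (No d) (D.ρ1 n') w') (a : Fin d) (ha : a.val ≤ t)
    (k : ((w' a).val = 0 ∧ ∀ b : Fin d, b.val ≤ t → (w b).val ≠ 0) ∨
      ((w a).val + 1 = d ∧ ∀ b : Fin d, b.val ≤ t → (w' b).val + 1 ≠ d)) :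
    σ n v ∉ Dm D.U σ v n' := by
  have h0 := mn1 h.mon_n0
  have h1 := (frL h).test hσ h.long h0 (fun _ _ => id) (le_lt h (hσ.le h.sba) hP)
    (hn.gmul h0.ginv) hn'
  simp only [Equiv.Perm.mul_apply, pia] at h1
  refine (frL h).not_mem hσ h.long ?_
  rcases k with k | k
  · exact h1 1 {a} ∅ (by simp; omega) (fun b hb e => absurd (by omega) (k.2 b (by omega))) (by simp)
  · refine h1 (d - 1) (Finset.univ.filter fun b => b.val ≤ t)
      ((Finset.univ.filter fun b => b.val ≤ t).erase a) (fun b hb => ?_) (fun b hb e => ?_)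
      (Finset.card_erase_lt_of_mem (by simpa using ha))
    · have e : b.val ≤ t := by simpa using hb
      have := k.2 b e
      have := (w' b).2
      omega
    · simp only [Finset.mem_erase, Finset.mem_filter, Finset.mem_univ, true_and]
      exact ⟨fun e' => by rw [e'] at e; omega, by omega⟩

lemma dual_nd (h : CDL p D) (hσ : Md1 D.B D.U σ v f) (hP : D.nd t ∉ lineStab σ v) {s : ℕ}
    (hs : s + t + 2 = d) : D.nd s ∉ lineStab σ.dual f := by
  rintro ⟨c, hc⟩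
  have h0 := mn1 h.mon_n0
  have h2 := h.rk_eq
  have h1 : f (σ ((D.nd s)⁻¹ * D.n0) v) ≠ 0 := by
    rw [rho_mul, ← dual_app, hc]
    exact mul_ne_zero c.ne_zero
      (h.sba.toSBP.coeff_long_ne hσ.good hσ.hv hσ.hv0 hσ.hf hσ.hf0 h.long)
  have h3 := le_lt h (hσ.le h.sba) hP ((h.sba.toSBP.coeff_ne_iff hσ.good hσ.hv hσ.hv0 hσ.hf hσ.hf0
    h.long (mul_mem (inv_mem (h.sba.sub _ ⟨s, by omega, rfl⟩)) h.long.1)).1 h1)
  have h4 := (h0.ginv.gmul ((mn1 (h.mon_nd ⟨s, by omega⟩ ⟨s + 1, by omega⟩ rfl)).ginv.gmul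
    h0)).of_SC h3 (a := ⟨t, by omega⟩) id (Nat.lt_succ_self t)
  have h5 := swap_val (⟨s, by omega⟩ : Fin d) ⟨s + 1, by omega⟩ (⟨t, by omega⟩ : Fin d).rev
  simp [Fin.val_rev] at h4 h5
  omega

lemma dual_nd' (h : CDL p D) (hσ : Md1 D.B D.U σ v f) (hP : D.nd t ∉ lineStab σ.dual f) {s : ℕ}
    (hs : s + t + 2 = d) : D.nd s ∉ lineStab σ v := fun ⟨c, hc⟩ =>
  dual_nd h hσ.dual hP hs ⟨c, LinearMap.ext fun φ => by
    rw [dual_app, Module.Dual.eval_apply, dual_app, inv_inv, hc, map_smul]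
    rfl⟩

lemma HL.uniq (h : CDL p D) (hσ : Md1 D.B D.U σ v f) (hA : WL D.U σ A) (H : HL D σ v A (t + 1))
    (h2 : t + 1 < d) {s : ℕ} (h3 : s + 1 < d) (h4 : s ≠ t) : D.nd s ∈ lineStab σ v := by
  by_contra k
  obtain ⟨z, hz⟩ := ex_swap h ⟨0, by omega⟩ ⟨min s t + 1, by omega⟩
  obtain ⟨x, hx⟩ := ex_swap h ⟨max s t, by omega⟩ ⟨d - 1, by omega⟩
  have e1 := swap_val (⟨0, by omega⟩ : Fin d) ⟨min s t + 1, by omega⟩
  have e2 := swap_val (⟨max s t, by omega⟩ : Fin d) ⟨d - 1, by omega⟩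
  simp only at e1 e2
  have key : σ z v ∉ A ∧ σ x v ∉ A := by
    rcases lt_or_gt_of_ne h4 with e | e
    · have k1 := H x _ _ hx (Or.inr (by simp; omega))
      refine ⟨fun k2 => tl h hσ k hz hx ⟨0, by omega⟩ (Nat.zero_le _) (Or.inl ⟨?_, fun b hb => ?_⟩)
        (hA.cmp _ k1 k2), k1⟩
      · have := e2 ⟨0, by omega⟩
        simp only at this
        omega
      · have := e1 b
        omega
    · have k1 := H z _ _ hz (Or.inl (by simp; omega))
      refine ⟨k1, fun k2 => tl h hσ k hx hz ⟨s, by omega⟩ le_rfl (Or.inr ⟨?_, fun b hb => ?_⟩)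
        (hA.cmp _ k1 k2)⟩
      · have := e2 ⟨s, by omega⟩
        simp only at this
        omega
      · have := e1 b
        omega
  refine hA.big ((frL h).all fun a b hab _ _ => ?_)
  have := Fin.lt_def.1 hab
  by_cases e' : min s t + 1 < b.val
  · exact fxL h hσ.hv (Fin.le_def.2 (Nat.zero_le _)) hz (hA.cmp _ key.1) hab (Or.inr e')
  · exact fxL h hσ.hv (Fin.le_def.2 (by simp only; omega)) hx (hA.cmp _ key.2) hab
      (Or.inl (by simp only; omega))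

lemma hl_or (h : CDL p D) (hσ : Md1 D.B D.U σ v f) (hA : WL D.U σ A) (hP : D.nd t ∉ lineStab σ v)
    (h1 : 1 ≤ t) {s : ℕ} (h2 : 1 ≤ s) (hs : s + t + 2 = d) :
    HL D σ v A (t + 1) ∨ HL D σ.dual f A.dualAnnihilator (s + 1) := by
  by_contra hc
  simp only [HL, not_or, not_forall, not_not] at hc
  obtain ⟨⟨n, a, b, hn, k, hl⟩, ⟨n', a', b', hn', k', hl'⟩⟩ := hc
  let Bo : Equiv.Perm (Fin d) → Prop := fun w =>
    (∃ a : Fin d, a.val ≤ t ∧ (w a).val = 0) ∧ ∃ a : Fin d, a.val ≤ t ∧ (w a).val + 1 = d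
  let Ni : Equiv.Perm (Fin d) → Prop := fun w =>
    ∀ a : Fin d, a.val ≤ t → (w a).val ≠ 0 ∧ (w a).val + 1 ≠ d
  have e1 : ∀ {x y w w'}, Mn (No d) (D.ρ1 x) w → Mn (No d) (D.ρ1 y) w' → Ni w → Bo w' →
      (σ x v ∈ A ↔ σ y v ∈ A) := by
    rintro x y w w' hx hy k ⟨⟨a, a1, a2⟩, b, b1, b2⟩
    exact ⟨fun e => not_not.1 fun e' => tl h hσ hP hx hy a a1 (Or.inl ⟨a2, fun c hc => (k c hc).1⟩)
      (hA.cmp _ e' e), fun e => not_not.1 fun e' =>
        tl h hσ hP hy hx b b1 (Or.inr ⟨b2, fun c hc => (k c hc).2⟩) (hA.cmp _ e' e)⟩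
  have e2 : ∀ a b : Fin d, a.val = 0 ∧ b.val = t + 1 → Ni (Equiv.swap a b) := fun a b k c hc => by
    have := swap_val a b c
    omega
  have e3 : ∀ a b : Fin d, a.val + 1 = t + 1 ∧ b.val + 1 = d → Bo (Equiv.swap a b) :=
    fun a b k => by
      have := swap_val a b ⟨0, by omega⟩
      exact ⟨⟨⟨0, by omega⟩, Nat.zero_le _, by simp only at this; omega⟩, a, by omega,
        by simp [k.2]⟩
  obtain ⟨z, hz⟩ := ex_swap h ⟨0, by omega⟩ ⟨t + 1, by omega⟩
  obtain ⟨x, hx⟩ := ex_swap h ⟨t, by omega⟩ ⟨d - 1, by omega⟩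
  have z1 := e2 ⟨0, by omega⟩ ⟨t + 1, by omega⟩ ⟨rfl, rfl⟩
  have x1 := e3 ⟨t, by omega⟩ ⟨d - 1, by omega⟩ ⟨rfl, by simp only; omega⟩
  have e4 : σ x v ∈ A := k.elim (fun k => (e1 hn hx (e2 a b k) x1).1 hl) fun k =>
    (e1 hz hx z1 x1).1 ((e1 hz hn z1 (e3 a b k)).2 hl)
  have h0 := hn'.gmul (mn1 h.mon_n0)
  have e5 : σ (n' * D.n0) v ∈ A := by
    rcases k' with k' | k'
    · refine (e1 hz h0 z1 ⟨⟨⟨t, by omega⟩, le_rfl, ?_⟩, ⟨0, by omega⟩, Nat.zero_le _, ?_⟩).1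
        ((e1 hz hx z1 x1).2 e4)
      · have := swap_val a' b' (⟨t, by omega⟩ : Fin d).rev
        simp [Fin.val_rev] at this ⊢
        omega
      · have := swap_val a' b' (⟨0, by omega⟩ : Fin d).rev
        simp [Fin.val_rev] at this ⊢
        omega
    · refine (e1 h0 hx (fun c hc => ?_) x1).2 e4
      have := swap_val a' b' c.rev
      have := rev_val c
      simp only [Equiv.Perm.mul_apply, Fin.revPerm_apply]
      omega
  have e6 := (Submodule.mem_dualAnnihilator _).1 hl' _ e5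
  rw [dual_app, ← rho_mul, inv_mul_cancel_left] at e6
  exact h.sba.toSBP.coeff_long_ne hσ.good hσ.hv hσ.hv0 hσ.hf hσ.hf0 h.long e6

lemma stab_dual : Stab σ A ≤ Stab σ.dual A.dualAnnihilator := fun g hg φ hφ =>
  (Submodule.mem_dualAnnihilator _).2 fun x hx =>
    (Submodule.mem_dualAnnihilator _).1 hφ _ ((Stab σ A).inv_mem hg x hx)

theorem linear (h : CDL p D) (hσ : Md1 D.B D.U σ v f) (hA : WL D.U σ A)
    (hA' : WL D.U σ.dual A.dualAnnihilator) (hP : D.nd t ∉ lineStab σ v) (h1 : 1 ≤ t)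
    (h2 : t + 3 ≤ d) : (∃ s, s + 4 ≤ d ∧ D.nd s ∉ Stab σ A ∧ D.nd (s + 2) ∉ Stab σ A) ∧
      ∀ s, s + 1 < d → s ≠ t → D.nd s ∈ lineStab σ v := by
  rcases hl_or h hσ hA hP h1 (s := d - t - 2) (by omega) (by omega) with H | H
  · exact ⟨⟨t - 1, by omega, H.nd h hσ.hv hA (by omega) (by omega) (by omega) (by omega),
      H.nd h hσ.hv hA (by omega) (by omega) (by omega) (by omega)⟩,
      fun s k k' => H.uniq h hσ hA (by omega) k k'⟩
  · refine ⟨⟨d - t - 3, by omega,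
      fun k => H.nd h hσ.hf hA' (by omega) (by omega) (by omega) (by omega) (stab_dual k),
      fun k => H.nd h hσ.hf hA' (by omega) (by omega) (by omega) (by omega) (stab_dual k)⟩,
      fun s k k' => not_not.1 fun e => dual_nd h hσ e (s := d - s - 2) (by omega)
        (H.uniq h hσ.dual hA' (by omega) (by omega) (by omega))⟩

end Vale.Agent.P183S1
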