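import Vale.Agent.P183M.B1

/-!
Groups of matrices with a split BN-pair: monomial matrices, the vanishing test for matrix
coefficients, and elements which fix the modules `k[U] n v`.
-/

set_option linter.unusedSectionVars false

namespace Vale.Agent.P183S1

open Matrix Subgroup Vale.Agent.P240.H195 Vale.Agent.P183CR Vale.Agent.P183M

variable {G : Type} [Group G] {F : Type} [Field F] {d : ℕ}

/-- monomial outside the block `Md` -/
structure Mn (Md : Fin d → Prop) (M : Matrix (Fin d) (Fin d) F) (w : Equiv.Perm (Fin d)) :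
    Prop where
  md : ∀ a, Md (w a) ↔ Md a
  ne : ∀ a, ¬ Md a → M (w a) a ≠ 0
  zero : ∀ i a, ¬ (Md i ∧ Md a) → i ≠ w a → M i a = 0

variable {Md : Fin d → Prop} {M M' : Matrix (Fin d) (Fin d) F} {w w' : Equiv.Perm (Fin d)}

lemma pai (w : Equiv.Perm (Fin d)) (a : Fin d) : w (w⁻¹ a) = a := w.apply_symm_apply a

lemma pia (w : Equiv.Perm (Fin d)) (a : Fin d) : w⁻¹ (w a) = a := w.symm_apply_apply a

lemma Mn.row (h : Mn Md M w) {b : Fin d} (hb : ¬ Md b) (x : Fin d → F) :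
    (M *ᵥ x) (w b) = M (w b) b * x b := by
  rw [mulVec, dotProduct]
  refine Finset.sum_eq_single b (fun a _ ha => ?_) (by simp)
  rw [h.zero _ _ (fun k => hb ((h.md b).1 k.1)) (fun k => ha (w.injective k).symm), zero_mul]

lemma Mn.row' (h : Mn Md M w) {b : Fin d} (hb : ¬ Md b) (M' : Matrix (Fin d) (Fin d) F)
    (a : Fin d) : (M * M') (w b) a = M (w b) b * M' b a := h.row hb fun c => M' c a

lemma Mn.col' (h : Mn Md M w) {b : Fin d} (hb : ¬ Md b) (M' : Matrix (Fin d) (Fin d) F)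
    (i : Fin d) : (M' * M) i b = M' i (w b) * M (w b) b := by
  rw [mul_apply]
  refine Finset.sum_eq_single (w b) (fun a _ ha => ?_) (by simp)
  rw [h.zero _ _ (fun k => hb k.2) ha, mul_zero]

lemma Mn.mul (h : Mn Md M w) (h' : Mn Md M' w') : Mn Md (M * M') (w * w') where
  md a := (h.md _).trans (h'.md a)
  ne a ha := by
    have h1 : ¬ Md (w' a) := fun k => ha ((h'.md a).1 k)
    rw [Equiv.Perm.mul_apply, h.row' h1]
    exact mul_ne_zero (h.ne _ h1) (h'.ne a ha)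
  zero i a h1 h2 := by
    by_cases ha : Md a
    · obtain ⟨b, rfl⟩ := w.surjective i
      have hb : ¬ Md b := fun k => h1 ⟨(h.md b).2 k, ha⟩
      rw [h.row' hb, h'.zero b a (fun k => hb k.1) fun k => hb (k ▸ (h'.md a).2 ha), mul_zero]
    · rw [h'.col' ha, h.zero i _ (fun k => ha ((h'.md a).1 k.2)) h2, zero_mul]

lemma Mn.inv (h : Mn Md M w) (h1 : M * M' = 1) (h2 : M' * M = 1) : Mn Md M' w⁻¹ where
  md a := by rw [← h.md, pai]
  ne a ha := by
    obtain ⟨b, rfl⟩ := w.surjective a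
    have := h.row' (fun k => ha ((h.md b).2 k)) M' (w b)
    rw [h1, one_apply_eq] at this
    rw [pia]
    exact right_ne_zero_of_mul (this ▸ one_ne_zero)
  zero i a h3 h4 := by
    obtain ⟨b, rfl⟩ := w.surjective a
    rw [pia] at h4
    by_cases hb : Md b
    · have hi : ¬ Md i := fun k => h3 ⟨k, (h.md b).2 hb⟩
      have := h.row' hi M' (w b)
      rw [h1, one_apply_ne fun k => h4 (w.injective k)] at this
      exact (mul_eq_zero.1 this.symm).resolve_left (h.ne i hi)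
    · have := h.col' hb M' i
      rw [h2, one_apply_ne h4] at this
      exact (mul_eq_zero.1 this.symm).resolve_right (h.ne b hb)

variable {τ : G →* Matrix (Fin d) (Fin d) F}

lemma Mn.gmul {a b : G} (h : Mn Md (τ a) w) (h' : Mn Md (τ b) w') : Mn Md (τ (a * b)) (w * w') :=
  map_mul τ a b ▸ h.mul h'

lemma Mn.ginv {a : G} (h : Mn Md (τ a) w) : Mn Md (τ a⁻¹) w⁻¹ :=
  h.inv (by rw [← map_mul, mul_inv_cancel, map_one]) (by rw [← map_mul, inv_mul_cancel, map_one])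

lemma Mn.gone : Mn Md (τ 1) 1 where
  md _ := Iff.rfl
  ne a _ := by simp
  zero i a _ k := by
    rw [map_one]
    exact one_apply_ne k

lemma Mn.supp (h : Mn Md M w) {i j : Fin d} (k : M i j ≠ 0) : i = w j ∨ (Md i ∧ Md j) := by
  by_contra hc
  exact k (h.zero i j (fun e => hc (Or.inr e)) fun e => hc (Or.inl e))

variable {K V : Type} [Field K] [AddCommGroup V] [Module K V]

/-- the stabiliser of a subspace -/
def Stab [Finite G] (σ : Representation K G V) (A : Submodule K V) : Subgroup G where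
  carrier := {g | ∀ x ∈ A, σ g x ∈ A}
  one_mem' := fun x hx => by simpa using hx
  mul_mem' := fun {a b} ha hb x hx => by
    rw [rho_mul]
    exact ha _ (hb x hx)
  inv_mem' := fun {a} ha => by
    have h1 : ∀ n : ℕ, ∀ x ∈ A, σ (a ^ n) x ∈ A := fun n => by
      induction n with
      | zero => exact fun x hx => by simpa using hx
      | succ n ih =>
        intro x hx
        rw [pow_succ, rho_mul]
        exact ih _ (ha x hx)
    have h2 : a⁻¹ = a ^ (orderOf a - 1) := by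
      rw [inv_eq_iff_mul_eq_one, ← pow_succ', Nat.sub_add_cancel (orderOf_pos a), pow_orderOf_eq_one]
    rw [h2]
    exact h1 _

variable [Finite G]

/-- the stabiliser of a coordinate subspace -/
def SC (τ : G →* Matrix (Fin d) (Fin d) F) (A : Fin d → Prop) : Subgroup G :=
  Stab (mrep τ) (Co F A)

lemma mem_SC {A : Fin d → Prop} {g : G} : g ∈ SC τ A ↔ ∀ x ∈ Co F A, τ g *ᵥ x ∈ Co F A := by
  simp only [← mrep_apply]
  rfl

lemma co_map {A A' : Fin d → Prop} (h : ∀ i j, M i j ≠ 0 → A j → A' i) {x : Fin d → F}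
    (hx : x ∈ Co F A) : M *ᵥ x ∈ Co F A' := fun i hi => by
  rw [mulVec, dotProduct]
  refine Finset.sum_eq_zero fun j _ => ?_
  by_cases k : M i j = 0
  · rw [k, zero_mul]
  · rw [hx j fun e => hi (h i j k e), mul_zero]

lemma mem_SC_of {A : Fin d → Prop} {g : G} (h : ∀ i j, τ g i j ≠ 0 → A j → A i) : g ∈ SC τ A :=
  mem_SC.2 fun _ hx => co_map h hx

lemma ee_mem {A : Fin d → Prop} {a : Fin d} (h : A a) : (ee a : Fin d → F) ∈ Co F A :=
  fun _ hb => ee_ne fun k => hb (k ▸ h)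

lemma Mn.of_SC {A : Fin d → Prop} {g : G} (h : Mn Md (τ g) w) (hg : g ∈ SC τ A) {a : Fin d}
    (ha : ¬ Md a) (k : A a) : A (w a) := by
  by_contra hc
  have := mem_SC.1 hg _ (ee_mem k) _ hc
  rw [mulVec_ee] at this
  exact h.ne a ha this

lemma Mn.mem_SC {A : Fin d → Prop} {g : G} (h : Mn Md (τ g) w) (h1 : ∀ a, A a → A (w a))
    (h2 : ∀ a, A a → ¬ Md a) : g ∈ SC τ A :=
  mem_SC_of fun _ j k e => (h.supp k).elim (fun k => k ▸ h1 j e) fun k => absurd k.2 (h2 j e)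

/-- the standing hypotheses -/
structure Fr (p : ℕ) (B N U : Subgroup G) (S : Set G) (τ : G →* Matrix (Fin d) (Fin d) F)
    (Md : Fin d → Prop) (Pt : Fin d → Fin d → Fin d → Fin d → Prop) : Prop where
  sba : SBA p B N U S
  ut : ∀ u ∈ U, Ut (τ u)
  up' : ∀ g, IsP p g → Ut (τ g) → (∀ i j, Md i → Md j → i ≠ j → τ g i j = 0) → g ∈ U
  gen : U ≤ closure {g | g ∈ U ∧ ∃ a b, a < b ∧ ¬ Md a ∧ ¬ Md b ∧
    ∀ i j, i ≠ j → ¬ Pt a b i j → τ g i j = 0}
  monT : ∀ t ∈ B, t ∈ N → Mn Md (τ t) 1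

/-- vanishing of the matrix coefficients on `n⁻¹ U n'` -/
def Z (U : Subgroup G) (σ : Representation K G V) (v : V) (f : Module.Dual K V) (n n' : G) :
    Prop := ∀ u ∈ U, f (σ (n⁻¹ * u * n') v) = 0

/-- the module `k[U] n v` -/
def Dm (U : Subgroup G) (σ : Representation K G V) (v : V) (n : G) : Submodule K V :=
  orbS σ U (σ n v)

variable {p : ℕ} {B N U : Subgroup G} {S : Set G} {Pt : Fin d → Fin d → Fin d → Fin d → Prop}

lemma ut_top (h : Ut M) {x : Fin d → F} {b : Fin d} (hb : ∀ a, b < a → x a = 0) :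
    (M *ᵥ x) b = x b := by
  rw [mulVec, dotProduct, Finset.sum_eq_single b (fun a _ ha => ?_) (by simp), h.2, one_mul]
  rcases lt_or_gt_of_ne ha with k | k
  · rw [h.1 _ _ k, zero_mul]
  · rw [hb a k, mul_zero]

namespace Fr

variable (h : Fr p B N U S τ Md Pt)
include h

lemma U_le {A : Fin d → Prop} (hA : ∀ i j, i < j → A j → A i) : U ≤ SC τ A := fun u hu =>
  mem_SC_of fun i j k e => by
    rcases lt_trichotomy i j with h1 | h1 | h1
    · exact hA i j h1 e
    · exact h1 ▸ e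
    · exact absurd ((h.ut u hu).1 i j h1) k

lemma le_SC {A : Fin d → Prop} (hA : ∀ a, A a → ¬ Md a) (hU : U ≤ SC τ A) {P : Subgroup G}
    (hB : B ≤ P) (hS : ∀ s ∈ S, s ∈ P → s ∈ SC τ A) : P ≤ SC τ A := by
  rw [← h.sba.toBN0.closure_eq_of h.sba.bruhat hB, closure_le]
  rintro g (hg | hg)
  · obtain ⟨u, hu, t, ht, htN, rfl⟩ := h.sba.split g hg
    exact mul_mem (hU hu) ((h.monT t ht htN).mem_SC (fun _ k => k) hA)
  · exact hS g hg.1 hg.2

lemma isP {u : G} (hu : u ∈ U) : IsP p u := by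
  obtain ⟨k, hk⟩ := h.sba.pgroup ⟨u, hu⟩
  exact ⟨k, by simpa using congrArg Subtype.val hk⟩

end Fr

/-- a good module with its invariant vector and functional -/
structure Md1 (B U : Subgroup G) (σ : Representation K G V) (v : V) (f : Module.Dual K V) :
    Prop where
  good : Good σ B
  hv : v ∈ fixS σ U
  hv0 : v ≠ 0
  hf : f ∈ fixS σ.dual U
  hf0 : f ≠ 0

variable [CharP K p] [FiniteDimensional K V] {σ : Representation K G V} {v : V}
  {f : Module.Dual K V} {n0 : G} {w0 : Equiv.Perm (Fin d)}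

theorem Fr.test (h : Fr p B N U S τ Md Pt) (hσ : Md1 B U σ v f) (hl : h.sba.toBN0.Long n0)
    (h0 : Mn Md (τ n0) w0) {A : Fin d → Prop} (hA : ∀ a, A a → ¬ Md a)
    (hP : lineStab σ v ≤ SC τ A) {n n' : G} (hn : Mn Md (τ n) w) (hn' : Mn Md (τ n') w') (j : ℕ)
    (X Y : Finset (Fin d)) (hX : ∀ a ∈ X, A a ∧ (w' a).val < j)
    (hY : ∀ a, A a → (w (w0 a)).val < j → a ∈ Y) (hc : Y.card < X.card) : Z U σ v f n n' := by
  classical
  intro u hu
  by_contra hne
  obtain ⟨u', hu', y, hy, e⟩ :=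
    (h.sba.toSBP.coeff_ne_iff' hσ.good hσ.hv hσ.hv0 hσ.hf hσ.hf0 hl _).1 hne
  have e' : u * n' = n * (u' * (n0 * y)) := by
    rw [← mul_assoc u', ← e]
    group
  let ι : (X → F) →ₗ[F] (Fin d → F) := Function.ExtendByZero.linearMap F Subtype.val
  have hι : ∀ x (a : X), ι x a = x a := fun x a =>
    Subtype.val_injective.extend_apply x 0 a
  have hι' : ∀ x, ι x ∈ Co F (· ∈ X) := fun x a ha =>
    Function.extend_apply' x (0 : Fin d → F) a fun ⟨b, hb⟩ => ha (hb ▸ b.2)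
  let Φ : (X → F) →ₗ[F] (Y → F) :=
    (LinearMap.funLeft F F (Subtype.val : Y → Fin d)) ∘ₗ (mulVecLin (τ y)) ∘ₗ ι
  obtain ⟨x, hx, hx0⟩ := (Submodule.ne_bot_iff _).1
    (LinearMap.ker_ne_bot_of_finrank_lt (f := Φ) (by simpa using hc))
  have hxA : ι x ∈ Co F A := fun a ha => hι' x a fun k => ha (hX a k).1
  have h1 : τ y *ᵥ ι x ∈ Co F A := mem_SC.1 (hP hy) _ hxA
  have h2 : τ (n0 * y) *ᵥ ι x ≠ 0 := fun k => hx0 (funext fun a => by
    rw [← hι x a, ← inv_mul_vec τ (n0 * y) (ι x), k, mulVec_zero]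
    rfl)
  obtain ⟨b, hb, hmax⟩ := (Finset.univ.filter fun a => (τ (n0 * y) *ᵥ ι x) a ≠ 0).exists_max_image
    id (by
      obtain ⟨a, ha⟩ := Function.ne_iff.1 h2
      exact ⟨a, by simpa using ha⟩)
  obtain ⟨a, rfl⟩ := w0.surjective b
  have hb' : (τ n0 *ᵥ (τ y *ᵥ ι x)) (w0 a) ≠ 0 := by simpa [mul_vec] using hb
  have ha : A a := by
    by_contra hc
    refine hb' (co_map (A' := fun i => A (w0⁻¹ i)) (fun i j k e => ?_) h1 _ (by simpa using hc))
    rcases h0.supp k with k | k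
    · simpa [k] using e
    · exact absurd k.2 (hA j e)
  have h3 : ¬ Md (w0 a) := fun k => hA a ha ((h0.md a).1 k)
  have h4 : (τ (u * n') *ᵥ ι x) (w (w0 a)) ≠ 0 := by
    rw [e', mul_vec, hn.row h3, mul_vec, ut_top (h.ut u' hu') fun c hc => by
      by_contra k
      exact absurd (hmax c (by simpa using k)) (not_le.2 hc), mul_vec]
    exact mul_ne_zero (hn.ne _ h3) hb'
  have h5 : τ (u * n') *ᵥ ι x ∈ Co F fun a => a.val < j := by
    rw [mul_vec]
    refine mem_SC.1 (h.U_le (A := fun a => a.val < j) (fun i j' k e => Nat.lt_trans k e) hu) _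
      (co_map (fun i c k e => ?_) (hι' x))
    rcases hn'.supp k with k | k
    · exact k ▸ (hX c e).2
    · exact absurd k.2 (hA c (hX c e).1)
  have h6 := hY a ha (not_not.1 fun k => h4 (h5 _ k))
  rw [h0.row (hA a ha)] at hb'
  exact right_ne_zero_of_mul hb' (congrFun hx ⟨a, h6⟩)

lemma Fr.not_mem (h : Fr p B N U S τ Md Pt) (hσ : Md1 B U σ v f) (hl : h.sba.toBN0.Long n0)
    {n n' : G} (hz : Z U σ v f (n * n0⁻¹) n') : σ n v ∉ Dm U σ v n' := fun k => by
  have h1 : Dm U σ v n' ≤ LinearMap.ker (f ∘ₗ σ (n * n0⁻¹)⁻¹) := orbS_le fun u hu => by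
    have := hz u hu
    rwa [rho_mul, rho_mul] at this
  have h2 : f (σ (n * n0⁻¹)⁻¹ (σ n v)) = 0 := h1 k
  rw [← rho_mul, show (n * n0⁻¹)⁻¹ * n = n0 by group] at h2
  exact h.sba.toSBP.coeff_long_ne hσ.good hσ.hv hσ.hv0 hσ.hf hσ.hf0 hl h2

omit [CharP K p] [FiniteDimensional K V]

/-- elements with a given pattern -/
def Rt (p : ℕ) (τ : G →* Matrix (Fin d) (Fin d) F) (Q : Fin d → Fin d → Prop) (g : G) : Prop :=
  IsP p g ∧ ∀ i j, (τ g - 1) i j ≠ 0 → Q i j

/-- all elements with a given pattern fix `A` -/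
def Fx (p : ℕ) (τ : G →* Matrix (Fin d) (Fin d) F) (σ : Representation K G V) (A : Submodule K V)
    (Q : Fin d → Fin d → Prop) : Prop := ∀ g, Rt p τ Q g → ∀ x ∈ A, σ g x = x

lemma Fx.mono {A : Submodule K V} {Q Q' : Fin d → Fin d → Prop} (h : Fx p τ σ A Q)
    (k : ∀ i j, Q' i j → Q i j) : Fx p τ σ A Q' :=
  fun g hg => h g ⟨hg.1, fun i j e => k i j (hg.2 i j e)⟩

lemma isP_conj {g : G} (h : IsP p g) (n : G) : IsP p (n * g * n⁻¹) :=
  let ⟨k, hk⟩ := h
  ⟨k, by rw [conj_pow, hk, mul_one, mul_inv_cancel]⟩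

lemma Rt.conj {Q Q' : Fin d → Fin d → Prop} {g n : G} (h : Rt p τ Q g)
    (k : ∀ i a b j, τ n i a ≠ 0 → Q a b → τ n⁻¹ b j ≠ 0 → Q' i j) : Rt p τ Q' (n * g * n⁻¹) := by
  refine ⟨isP_conj h.1 n, fun i j e => ?_⟩
  have h1 : τ (n * g * n⁻¹) - 1 = τ n * (τ g - 1) * τ n⁻¹ := by
    rw [mul_sub, sub_mul, mul_one, ← map_mul, ← map_mul, ← map_mul, mul_inv_cancel, map_one]
  rw [h1, mul_apply] at e
  obtain ⟨b, -, hb⟩ := Finset.exists_ne_zero_of_sum_ne_zero e
  have hb' := left_ne_zero_of_mul hb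
  rw [mul_apply] at hb'
  obtain ⟨a, -, ha⟩ := Finset.exists_ne_zero_of_sum_ne_zero hb'
  exact k i a b j (left_ne_zero_of_mul ha) (h.2 a b (right_ne_zero_of_mul ha))
    (right_ne_zero_of_mul hb)

lemma Fx.conj {A : Submodule K V} {Q Q' : Fin d → Fin d → Prop} (h : Fx p τ σ A Q') {n : G}
    (hn : Mn Md (τ n) w) (hA : n ∈ Stab σ A)
    (k : ∀ i a b j, (i = w a ∨ (Md i ∧ Md a)) → Q a b → (j = w b ∨ (Md j ∧ Md b)) → Q' i j) :
    Fx p τ σ A Q := fun g hg x hx => by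
  have h1 := h _ (hg.conj (n := n) fun i a b j k1 k2 k3 => k i a b j (hn.supp k1) k2
    ((hn.ginv.supp k3).imp (fun e => by simp [e]) And.symm)) _ (hA x hx)
  rw [← rho_mul, inv_mul_cancel_right, rho_mul] at h1
  rw [← rho_inv_rho σ n (σ g x), h1, rho_inv_rho]

theorem Fr.fx (h : Fr p B N U S τ Md Pt) (hv : v ∈ fixS σ U) (l : Fin d → ℕ)
    (hm : ∀ i j, i ≤ j → l i ≤ l j) (hc : ∀ i j, Md i → Md j → l i = l j) {n : G}
    (hn : Mn Md (τ n) w) (hw : ∀ a, l (w a) = l a) :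
    Fx p τ σ (Dm U σ v n) fun i j => l i < l j := by
  intro g hg
  have h1 : ∀ u ∈ U, ∀ i j, τ u i j ≠ 0 → l i ≤ l j := fun u hu i j k =>
    hm i j (not_lt.1 fun e => k ((h.ut u hu).1 i j e))
  have h2 : ∀ {n : G} {w}, Mn Md (τ n) w → (∀ a, l (w a) = l a) → ∀ i j, τ n i j ≠ 0 → l i = l j :=
    fun hn hw i j k => (hn.supp k).elim (fun e => e ▸ hw j) fun e => hc i j e.1 e.2
  have hw' : ∀ a, l (w⁻¹ a) = l a := fun a => by rw [← hw, pai]
  have h3 : Dm U σ v n ≤ LinearMap.ker (σ g - 1) := orbS_le fun u hu => by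
    have k1 := (hg.conj (n := u⁻¹) (Q' := fun i j => l i < l j) fun i a b j k1 k2 k3 =>
      ((h1 _ (inv_mem hu) i a k1).trans_lt k2).trans_le (h1 _ (by simpa using hu) b j k3)).conj
      (n := n⁻¹) (Q' := fun i j => l i < l j) fun i a b j k1 k2 k3 =>
      ((h2 hn.ginv hw' i a k1).trans_lt k2).trans_eq (h2 hn hw b j (by simpa using k3))
    have k2 : ∀ i j, l j ≤ l i → _ := fun i j e => sub_eq_zero.1
      (not_not.1 fun k => absurd (k1.2 i j k) (not_lt.2 e))
    have k3 := hv _ (h.up' _ k1.1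
      ⟨fun i j e => (k2 i j (hm j i e.le)).trans (one_apply_ne e.ne'),
        fun i => (k2 i i le_rfl).trans (one_apply_eq i)⟩
      fun i j e e' k => (k2 i j (hc j i e' e).le).trans (one_apply_ne k))
    rw [LinearMap.mem_ker, LinearMap.sub_apply, sub_eq_zero, Module.End.one_apply]
    conv_rhs => rw [← k3]
    simp only [← rho_mul]
    congr 2
    group
  exact fun x hx => sub_eq_zero.1 (h3 hx)

theorem Fr.all (h : Fr p B N U S τ Md Pt) {A : Submodule K V}
    (hA : ∀ a b, a < b → ¬ Md a → ¬ Md b → Fx p τ σ A (Pt a b)) : A ≤ fixS σ U := by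
  intro x hx u hu
  refine closure_induction (p := fun g _ => σ g x = x) ?_ (by simp) ?_ ?_ (h.gen hu)
  · rintro g ⟨hg, a, b, hab, ha, hb, k⟩
    refine hA a b hab ha hb g ⟨?_, fun i j e => ?_⟩ x hx
    · obtain ⟨k, hk⟩ := h.sba.pgroup ⟨g, hg⟩
      exact ⟨k, by simpa using congrArg Subtype.val hk⟩
    · by_contra hc
      rcases eq_or_ne i j with rfl | e'
      · exact e (by simp [(h.ut g hg).2])
      · exact e (by rw [Matrix.sub_apply, k i j e' hc, one_apply_ne e', sub_zero])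
  · intro a b _ _ ha hb
    rw [rho_mul, hb, ha]
  · intro a _ ha
    conv_lhs => rw [← ha, rho_inv_rho]

end Vale.Agent.P183S1
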