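import Vale.Agent.P183S1.Mat

/-!
Signed permutations; the vanishing test for groups of form type.
-/

set_option linter.unusedSectionVars false

namespace Vale.Agent.P183S1

open Matrix Subgroup Vale.Agent.P240.H195 Vale.Agent.P183CR Vale.Agent.P183M

variable {d : ℕ}

lemma rev_val (a : Fin d) : a.rev.val + a.val + 1 = d := by
  have := a.2
  rw [Fin.val_rev]
  omega

lemma rf_val {a b : Fin d} (h1 : 2 * a.val + 1 ≠ d) (h2 : 2 * b.val + 1 ≠ d)
    (h3 : a.val + b.val + 1 ≠ d) (c : Fin d) :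
    (c.val = a ∧ (rf a b c).val = b) ∨ (c.val = b ∧ (rf a b c).val = a) ∨
    (c.val + a + 1 = d ∧ (rf a b c).val + b + 1 = d) ∨
    (c.val + b + 1 = d ∧ (rf a b c).val + a + 1 = d) ∨
    (c.val ≠ a ∧ c.val ≠ b ∧ c.val + a + 1 ≠ d ∧ c.val + b + 1 ≠ d ∧ (rf a b c).val = c) := by
  have := rev_val a
  have := rev_val b
  simp only [rf, Equiv.Perm.mul_apply, Equiv.swap_apply_def, Fin.ext_iff]
  split_ifs <;> omega

lemma swap_val (a b c : Fin d) : (c.val = a ∧ (Equiv.swap a b c).val = b) ∨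
    (c.val = b ∧ (Equiv.swap a b c).val = a) ∨
    (c.val ≠ a ∧ c.val ≠ b ∧ (Equiv.swap a b c).val = c) := by
  simp only [Equiv.swap_apply_def, Fin.ext_iff]
  split_ifs <;> omega

/-- signed indices -/
def enc (a : Fin d) : ℤ := if 2 * a.val + 1 < d then a.val + 1 else (a.val : ℤ) - d

lemma enc_val (a : Fin d) :
    (2 * a.val + 1 < d ∧ enc a = a.val + 1) ∨ (d ≤ 2 * a.val + 1 ∧ enc a = (a.val : ℤ) - d) := by
  unfold enc
  split_ifs <;> omega

/-- the first and the last `μ` indices -/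
def Cr (μ : ℕ) (a : Fin d) : Prop := a.val < μ ∨ d ≤ a.val + μ

/-- the range of signed indices -/
def Rg (μ : ℕ) (x : ℤ) : Prop := x ≠ 0 ∧ -(μ : ℤ) ≤ x ∧ x ≤ μ

/-- reflections on signed indices -/
def rfZ (α β x : ℤ) : ℤ :=
  if x = α then β else if x = β then α else if x = -α then -β else if x = -β then -α else x

/-- two sign changes -/
def flZ (α β x : ℤ) : ℤ := if x = α ∨ x = β ∨ x = -α ∨ x = -β then -x else x

lemma cr_rev {μ : ℕ} (a : Fin d) : Cr μ a.rev ↔ Cr μ a := by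
  have := rev_val a
  unfold Cr
  omega

lemma enc_rev {μ : ℕ} (hμ : 2 * μ ≤ d) {a : Fin d} (ha : Cr μ a) : enc a.rev = - enc a := by
  have := rev_val a
  have := enc_val a
  have := enc_val a.rev
  unfold Cr at ha
  omega

lemma enc_inj {a b : Fin d} (h : enc a = enc b) : a = b := by
  have := enc_val a
  have := enc_val b
  have := a.2
  have := b.2
  exact Fin.ext (by omega)

lemma enc_rf {μ : ℕ} (hμ : 2 * μ ≤ d) {a b : Fin d} (ha : Cr μ a) (hb : Cr μ b)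
    (h2 : enc a ≠ -enc b) (c : Fin d) : enc (rf a b c) = rfZ (enc a) (enc b) (enc c) := by
  have ra := rev_val a
  have rb := rev_val b
  have ea := enc_rev hμ ha
  have eb := enc_rev hμ hb
  have a0 : enc a ≠ 0 := by
    have := enc_val a
    have := a.2
    omega
  have b0 : enc b ≠ 0 := by
    have := enc_val b
    have := b.2
    omega
  have h3 : a.val + b.val + 1 ≠ d := fun k => h2 (eb ▸ congrArg enc (Fin.ext (by omega)))
  unfold Cr at ha hb
  unfold rfZ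
  rcases rf_val (a := a) (b := b) (by omega) (by omega) h3 c with k | k | k | k | k
  · rw [Fin.ext k.2, Fin.ext k.1, if_pos rfl]
  · rw [Fin.ext k.2, Fin.ext k.1]
    split_ifs <;> omega
  · rw [show rf a b c = b.rev from Fin.ext (by omega), show c = a.rev from Fin.ext (by omega)]
    split_ifs <;> omega
  · rw [show rf a b c = a.rev from Fin.ext (by omega), show c = b.rev from Fin.ext (by omega)]
    split_ifs <;> omega
  · rw [Fin.ext k.2.2.2.2, ← ea, ← eb, if_neg, if_neg, if_neg, if_neg] <;>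
      exact fun e => by have := congrArg Fin.val (enc_inj e); omega

lemma exists_enc {μ : ℕ} (h : 2 * μ ≤ d) {x : ℤ} (hx : Rg μ x) : ∃ a : Fin d, Cr μ a ∧ enc a = x := by
  unfold Rg at hx
  unfold Cr
  rcases lt_or_gt_of_ne hx.1 with k | k
  · refine ⟨⟨(d + x).toNat, by omega⟩, ?_⟩
    have := enc_val (⟨(d + x).toNat, by omega⟩ : Fin d)
    simp only at this ⊢
    omega
  · refine ⟨⟨(x - 1).toNat, by omega⟩, ?_⟩
    have := enc_val (⟨(x - 1).toNat, by omega⟩ : Fin d)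
    simp only at this ⊢
    omega

variable {G : Type} [Group G] [Finite G] {F F0 : Type} [Field F] [Field F0] {p : ℕ}
  {D : Dat G F F0 d} {w w' : Equiv.Perm (Fin d)}

lemma mid_iff (a : Fin d) : D.Mid a ↔ D.m ≤ a.val ∧ a.val + D.m < d := by
  have := rev_val a
  unfold Dat.Mid
  omega

lemma mn_of_mon {M : Matrix (Fin d) (Fin d) F} (h : D.Mon M w) : Mn D.Mid M w where
  md a := ⟨fun k => w.injective (h.1.2 _ k) ▸ k, fun k => (h.1.2 a k).symm ▸ k⟩
  ne a ha := by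
    obtain ⟨c, hc⟩ := h.2.1 a ha
    rw [← mulVec_ee M, hc]
    simp [ee_self]
  zero i a h1 h2 := by
    by_cases ha : D.Mid a
    · exact h.2.2 a i ha fun k => h1 ⟨k, ha⟩
    · obtain ⟨c, hc⟩ := h.2.1 a ha
      rw [← mulVec_ee M, hc]
      simp [ee_ne h2]

lemma fr_of (h : CDF p D) : Fr p D.B D.N D.U D.S D.ρ D.Mid D.Pat where
  sba := h.sba
  ut u hu := (h.up u hu).1
  up' g h1 h2 h3 := h.up' g h1 ⟨h2, h3⟩
  gen := h.gen
  monT t h1 h2 := mn_of_mon (h.mon_T t h1 h2)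

/-- the coordinate subspace which belongs to the node `i` -/
def A0 (D : Dat G F F0 d) (i : ℕ) (a : Fin d) : Prop :=
  (D.dty ∧ i + 2 = D.m ∧ (a.val + 1 < D.m ∨ a.val = D.m)) ∨ (¬ (D.dty ∧ i + 2 = D.m) ∧ a.val ≤ i)

lemma A0_nm (h : CDF p D) {i : ℕ} (hi : i < D.m) {a : Fin d} (ha : A0 D i a) : ¬ D.Mid a := by
  rw [mid_iff]
  rcases ha with ⟨h1, h2, h3⟩ | ⟨-, h2⟩
  · have := (h.dzero h1).1
    omega
  · omega

lemma U_le_ex (h : CDF p D) (hd : D.dty) :
    D.U ≤ SC D.ρ fun a => a.val + 1 < D.m ∨ a.val = D.m := fun u hu =>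
  mem_SC_of fun i j k e => by
    have h1 : i.val ≤ j.val := not_lt.1 fun e => k ((h.up u hu).1.1 i j e)
    have h2 := (h.dzero hd).1
    have h3 := rev_val i
    by_contra hc
    have h4 : j = i.rev := Fin.ext (by omega)
    exact k (h4 ▸ (h.dzero hd).2 u hu i (by omega))

lemma U_le_A0 (h : CDF p D) (i : ℕ) : D.U ≤ SC D.ρ (A0 D i) := by
  by_cases k : D.dty ∧ i + 2 = D.m
  · have : A0 D i = fun a => a.val + 1 < D.m ∨ a.val = D.m := funext fun a => by simp [A0, k]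
    rw [this]
    exact U_le_ex h k.1
  · refine (fr_of h).U_le fun a b hab hb => Or.inr ⟨k, ?_⟩
    rcases hb with hb | hb
    · exact absurd ⟨hb.1, hb.2.1⟩ k
    · exact le_trans (le_of_lt hab) hb.2

lemma le_A0 (h : CDF p D) (hm : 2 ≤ D.m) {P : Subgroup G} (hB : D.B ≤ P) {i : ℕ} (hi : i < D.m)
    (hP : D.nd i ∉ P) : P ≤ SC D.ρ (A0 D i) := by
  refine (fr_of h).le_SC (fun a => A0_nm h hi) (U_le_A0 h i) hB ?_
  rintro s ⟨j, hj, rfl⟩ hs
  have h1 : j ≠ i := fun k => hP (k ▸ hs)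
  have h2 := h.le_d
  rw [h.rk_eq] at hj
  by_cases k : j + 1 < D.m
  · refine (mn_of_mon (h.mon_nd ⟨j, by omega⟩ ⟨j + 1, by omega⟩ rfl k)).mem_SC (fun a ha => ?_)
      fun a => A0_nm h hi
    have := rf_val (a := (⟨j, by omega⟩ : Fin d)) (b := ⟨j + 1, by omega⟩) (by simp; omega)
      (by simp; omega) (by simp; omega) a
    unfold A0 at ha ⊢
    by_cases hd : D.dty
    · have := (h.dzero hd).1
      simp only [hd, true_and] at *
      omega
    · simp only [hd, false_and, false_or, not_false_iff, true_and] at *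
      omega
  · by_cases hd : D.dty
    · have h3 := (h.dzero hd).1
      refine (mn_of_mon (h.mon_last' hd ⟨j - 1, by omega⟩ ⟨j, by omega⟩ (by simp; omega)
        (by simp; omega))).mem_SC (fun a ha => ?_) fun a => A0_nm h hi
      have h4 := rev_val (⟨j, by omega⟩ : Fin d)
      have := rf_val (a := (⟨j - 1, by omega⟩ : Fin d)) (b := (⟨j, by omega⟩ : Fin d).rev)
        (by simp only at *; omega) (by simp only at *; omega) (by simp only at *; omega) a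
      unfold A0 at ha ⊢
      simp only [hd, true_and] at *
      omega
    · refine (mn_of_mon (h.mon_last hd ⟨j, by omega⟩ (by simp; omega))).mem_SC (fun a ha => ?_)
        fun a => A0_nm h hi
      have h4 := rev_val (⟨j, by omega⟩ : Fin d)
      have h5 := swap_val (⟨j, by omega⟩ : Fin d) (⟨j, by omega⟩ : Fin d).rev a
      unfold A0 at ha ⊢
      simp only [hd, false_and, false_or, not_false_iff, true_and] at ha h4 h5 ⊢
      omega

/-- `r` induces `φ` on signed indices -/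
def Act (D : Dat G F F0 d) (r : G) (φ : ℤ → ℤ) : Prop :=
  ∃ w, Mn D.Mid (D.ρ r) w ∧ (∀ a, w a.rev = (w a).rev) ∧ ∀ a, ¬ D.Mid a → enc (w a) = φ (enc a)

/-- `r` preserves the level function `l` -/
def Lv (D : Dat G F F0 d) (r : G) (l : Fin d → ℕ) : Prop :=
  ∃ w, Mn D.Mid (D.ρ r) w ∧ ∀ a, l (w a) = l a

/-- `n` maps the first `t` indices to `I` -/
def Vx (D : Dat G F F0 d) (μ t : ℕ) (n : G) (I : ℤ → Prop) : Prop :=
  ∃ w, Mn D.Mid (D.ρ n) w ∧ (∀ a, w a.rev = (w a).rev) ∧ (∀ a, Cr μ (w a) ↔ Cr μ a) ∧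
    ∀ a, Cr μ a → (I (enc (w a)) ↔ a.val < t)

lemma exists_rf (h : CDF p D) {α β : ℤ} (hα : Rg D.m α) (hβ : Rg D.m β) (h1 : α ≠ β)
    (h2 : α ≠ -β) : ∃ r, Act D r (rfZ α β) ∧ ∀ l : Fin d → ℕ,
      (∀ a b, enc a = α → enc b = β → l a = l b ∧ l a.rev = l b.rev) → Lv D r l := by
  have h0 := h.le_d
  obtain ⟨a, ha, rfl⟩ := exists_enc h0 hα
  obtain ⟨b, hb, rfl⟩ := exists_enc h0 hβ
  have ea := enc_val a
  have eb := enc_val b
  have rb := rev_val b
  unfold Cr at ha hb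
  obtain ⟨r, -, hr⟩ := h.refl a b (by rw [mid_iff]; omega) (by rw [mid_iff]; omega)
    (fun k => h1 (k ▸ rfl)) (fun k => by have := congrArg Fin.val k; omega)
  refine ⟨r, ⟨_, mn_of_mon hr, hr.1.1, fun c hc => ?_⟩, fun l hl => ⟨_, mn_of_mon hr, fun c => ?_⟩⟩
  · exact enc_rf h0 ha hb h2 c
  · rw [rf, Equiv.Perm.mul_apply, Equiv.apply_swap_eq_self (hl a b rfl rfl).1,
      Equiv.apply_swap_eq_self (hl a b rfl rfl).2]

lemma rg_of (h : CDF p D) {a : Fin d} (ha : ¬ D.Mid a) : Rg D.m (enc a) := by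
  have := h.le_d
  have := enc_val a
  have := a.2
  rw [mid_iff] at ha
  unfold Rg
  omega

lemma exists_fl (h : CDF p D) {α β : ℤ} (hα : Rg D.m α) (hβ : Rg D.m β) (h1 : α ≠ β)
    (h2 : α ≠ -β) : ∃ r, Act D r (flZ α β) ∧ ∀ (l : Fin d → ℕ) (s : ℕ),
      (∀ a, enc a = α ∨ enc a = β ∨ enc a = -β → l a = s ∧ l a.rev = s) → Lv D r l := by
  obtain ⟨r, ⟨w, a1, a2, a3⟩, a4⟩ := exists_rf h hα hβ h1 h2
  obtain ⟨r', ⟨w', b1, b2, b3⟩, b4⟩ := exists_rf h hα (β := -β) (by unfold Rg at *; omega) h2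
    (by omega)
  refine ⟨r * r', ⟨_, a1.gmul b1, fun a => by simp [a2, b2], fun a ha => ?_⟩, fun l s hl => ?_⟩
  · rw [Equiv.Perm.mul_apply, a3 _ fun k => ha ((b1.md a).1 k), b3 a ha]
    unfold Rg at hα hβ
    unfold rfZ flZ
    split_ifs <;> omega
  · obtain ⟨w, c1, c2⟩ := a4 l fun a b ha hb => by simp [hl a (by simp [ha]), hl b (by simp [hb])]
    obtain ⟨w', d1, d2⟩ := b4 l fun a b ha hb => by simp [hl a (by simp [ha]), hl b (by simp [hb])]
    exact ⟨_, c1.gmul d1, fun a => by rw [Equiv.Perm.mul_apply, c2, d2]⟩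

variable {μ t : ℕ} {n n' r : G} {I I' : ℤ → Prop} {φ : ℤ → ℤ}

lemma cr_iff (h : CDF p D) (hμ : μ ≤ D.m) (a : Fin d) : Cr μ a ↔ ¬ D.Mid a ∧ Rg μ (enc a) := by
  have := h.le_d
  have := enc_val a
  have := a.2
  rw [mid_iff]
  unfold Rg Cr
  omega

lemma Vx.one (h : CDF p D) (hμ : μ ≤ D.m) (ht : t ≤ μ) : Vx D μ t 1 fun x => 1 ≤ x ∧ x ≤ t := by
  refine ⟨1, Mn.gone, fun _ => rfl, fun _ => Iff.rfl, fun a ha => ?_⟩
  have := h.le_d
  have := enc_val a
  have := a.2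
  unfold Cr at ha
  simp only [Equiv.Perm.one_apply]
  omega

lemma Vx.left (h : CDF p D) (hμ : μ ≤ D.m) (hn : Vx D μ t n I) (hr : Act D r φ)
    (h1 : ∀ x, Rg D.m x → (Rg μ (φ x) ↔ Rg μ x) ∧ (Rg μ x → (I' (φ x) ↔ I x))) :
    Vx D μ t (r * n) I' := by
  obtain ⟨w, a1, a2, a3, a4⟩ := hn
  obtain ⟨w', b1, b2, b3⟩ := hr
  refine ⟨_, b1.gmul a1, fun a => by simp [a2, b2], fun a => ?_, fun a ha => ?_⟩
  · rw [Equiv.Perm.mul_apply, ← a3 a, cr_iff h hμ, cr_iff h hμ, b1.md]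
    exact and_congr_right fun k => by rw [b3 _ k, (h1 _ (rg_of h k)).1]
  · have k := (cr_iff h hμ _).1 ((a3 a).2 ha)
    rw [Equiv.Perm.mul_apply, b3 _ k.1, (h1 _ (rg_of h k.1)).2 k.2, a4 a ha]

lemma Vx.right (hμ : 2 * μ ≤ d) (hn : Vx D μ t n I) (hr : Mn D.Mid (D.ρ r) w)
    (h1 : ∀ a, w a.rev = (w a).rev) (h2 : ∀ a, Cr μ a → w a = a.rev) :
    Vx D μ t (n * r) fun x => I (-x) := by
  obtain ⟨w', a1, a2, a3, a4⟩ := hn
  refine ⟨_, a1.gmul hr, fun a => by simp [a2, h1], fun a => ?_, fun a ha => ?_⟩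
  · rw [Equiv.Perm.mul_apply, a3]
    refine ⟨fun k => ?_, fun k => by rwa [h2 a k, cr_rev]⟩
    have := h2 _ ((cr_rev _).2 k)
    rw [Fin.rev_rev] at this
    rwa [← w.injective this, cr_rev]
  · rw [Equiv.Perm.mul_apply, h2 a ha, a2, enc_rev hμ ((a3 a).2 ha)]
    simpa using a4 a ha

variable {K V : Type} [Field K] [AddCommGroup V] [Module K V] [CharP K p] [FiniteDimensional K V]

/-- a module whose highest weight line has its stabiliser in the stabiliser of a subspace which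
looks like the span of the first `t` basis vectors -/
structure Cx (p : ℕ) (D : Dat G F F0 d) (σ : Representation K G V) (v : V) (f : Module.Dual K V)
    (μ t : ℕ) : Prop where
  cd : CDF p D
  md : Md1 D.B D.U σ v f
  hμ : μ ≤ D.m
  hμ' : D.dty → μ + 1 ≤ D.m
  ht : t ≤ μ
  ex : ∃ A : Fin d → Prop, (∀ a, A a → ¬ D.Mid a) ∧ (∀ a, Cr μ a → (A a ↔ a.val < t)) ∧
    lineStab σ v ≤ SC D.ρ A
  symm : ∀ n n', Z D.U σ v f n n' → Z D.U σ v f n' n

variable {σ : Representation K G V} {v : V} {f : Module.Dual K V}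

namespace Cx

variable (h : Cx p D σ v f μ t)
include h

lemma le : 2 * μ ≤ d := by
  have := h.cd.le_d
  have := h.hμ
  omega

lemma n0 : ∃ w, Mn D.Mid (D.ρ D.n0) w ∧ (∀ a, w a.rev = (w a).rev) ∧ ∀ a, Cr μ a → w a = a.rev := by
  obtain ⟨w, h1, h2⟩ := h.cd.mon_n0
  have h3 : ∀ a : Fin d, a.val < μ → w a = a.rev := fun a ha =>
    h2 a (lt_of_lt_of_le ha h.hμ) fun k => by have := h.hμ' k; omega
  refine ⟨w, mn_of_mon h1, h1.1.1, fun a ha => ha.elim (h3 a) fun k => ?_⟩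
  have := rev_val a
  have := h3 a.rev (by omega)
  rw [h1.1.1] at this
  exact Fin.rev_injective this

lemma vx0 (hn : Vx D μ t n I) : Vx D μ t (n * D.n0) fun x => I (-x) :=
  let ⟨_, h1, h2, h3⟩ := h.n0
  hn.right h.le h1 h2 h3

lemma vx0' (hn : Vx D μ t n I) : Vx D μ t (n * D.n0⁻¹) fun x => I (-x) := by
  obtain ⟨w, h1, h2, h3⟩ := h.n0
  refine hn.right h.le h1.ginv (fun a => w.injective ?_) fun a ha => w.injective ?_
  · rw [pai, h2, pai]
  · rw [pai, h3 _ ((cr_rev a).2 ha), Fin.rev_rev]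

lemma test (hn : Vx D μ t n I) (hn' : Vx D μ t n' I') {j : ℤ} (hj : j ≤ μ) (X Y : Finset ℤ)
    (hX : ∀ x ∈ X, 1 ≤ x ∧ x ≤ j ∧ I' x) (hY : ∀ x, 1 ≤ x → x ≤ j → I (-x) → x ∈ Y)
    (hc : Y.card < X.card) : Z D.U σ v f n n' := by
  classical
  obtain ⟨w0, c1, -, c3⟩ := h.n0
  obtain ⟨A, d1, d2, d3⟩ := h.ex
  obtain ⟨w, a1, -, a3, a4⟩ := h.vx0 hn
  obtain ⟨w1, e1, -⟩ := hn
  obtain ⟨w', b1, -, b3, b4⟩ := hn'
  have hle := h.le
  have e : ∀ a, A a → w1 (w0 a) = w a := fun a ha => by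
    by_contra k
    exact (e1.gmul c1).ne a (d1 a ha) (a1.zero _ a (fun e => d1 a ha e.2) k)
  refine (fr_of h.cd).test h.md h.cd.long c1 d1 d3 e1 b1 j.toNat
    (Finset.univ.filter fun a => ((w' a).val : ℤ) + 1 ∈ X)
    (Finset.univ.filter fun a => ((w a).val : ℤ) + 1 ∈ Y) (fun a ha => ?_) (fun a ha k => ?_) ?_
  · have k := hX _ (Finset.mem_filter.1 ha).2
    have k1 : Cr μ a := (b3 a).1 (Or.inl (by omega))
    have k2 := enc_val (w' a)
    have k3 : enc (w' a) = (w' a).val + 1 := by omega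
    exact ⟨(d2 a k1).2 ((b4 a k1).1 (k3 ▸ k.2.2)), by omega⟩
  · rw [e a ha] at k
    have k1 : Cr μ a := (a3 a).1 (Or.inl (by omega))
    have k2 := enc_val (w a)
    have k3 : enc (w a) = (w a).val + 1 := by omega
    exact Finset.mem_filter.2 ⟨Finset.mem_univ _, hY _ (by omega) (by omega)
      (k3 ▸ (a4 a k1).2 ((d2 a k1).1 ha))⟩
  · refine lt_of_le_of_lt (Finset.card_le_card_of_injOn (fun a => ((w a).val : ℤ) + 1)
      (fun a ha => (Finset.mem_filter.1 ha).2) fun a _ b _ k => w.injective (Fin.ext ?_))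
      (hc.trans_le (Finset.card_le_card_of_surjOn (fun a => ((w' a).val : ℤ) + 1) fun x hx => ?_))
    · simp only at k
      omega
    · have k := hX x hx
      have k1 : ((w' (w'⁻¹ ⟨(x - 1).toNat, by omega⟩)).val : ℤ) + 1 = x := by
        rw [pai]
        simp only
        omega
      exact ⟨_, by simpa using k1 ▸ hx, k1⟩

end Cx

/-- numerical criterion -/
def T0 (μ : ℕ) (I I' : ℤ → Prop) : Prop :=
  ∃ x : ℤ, 1 ≤ x ∧ x ≤ μ ∧ I' x ∧ ∀ y, 1 ≤ y → y ≤ x → ¬ I (-y)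

/-- numerical criterion -/
def T1 (μ : ℕ) (I I' : ℤ → Prop) : Prop :=
  ∃ x x' b : ℤ, 1 ≤ x ∧ x < x' ∧ x' ≤ μ ∧ I' x ∧ I' x' ∧ ∀ y, 1 ≤ y → y ≤ x' → I (-y) → y = b

/-- numerical criterion -/
def ZI (μ : ℕ) (I I' : ℤ → Prop) : Prop := (T0 μ I I' ∨ T1 μ I I') ∨ (T0 μ I' I ∨ T1 μ I' I)

lemma Cx.z (h : Cx p D σ v f μ t) (hn : Vx D μ t n I) (hn' : Vx D μ t n' I') (k : ZI μ I I') :
    Z D.U σ v f n n' := by
  have : ∀ {n n' I I'}, Vx D μ t n I → Vx D μ t n' I' → T0 μ I I' ∨ T1 μ I I' →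
      Z D.U σ v f n n' := by
    rintro n n' I I' hn hn' (⟨x, h1, h2, h3, h4⟩ | ⟨x, x', b, h1, h2, h3, h4, h5, h6⟩)
    · exact h.test hn hn' h2 {x} ∅ (by simp [h1, h3]) (fun y a b c => absurd c (h4 y a b)) (by simp)
    · refine h.test hn hn' h3 {x, x'} {b} ?_ (fun y a b c => by simp [h6 y a b c]) ?_
      · simp [h1, h2.le, h4, h5, h1.trans h2.le]
      · rw [Finset.card_pair h2.ne]
        simp
  exact k.elim (this hn hn') fun k => h.symm _ _ (this hn' hn k)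

lemma Cx.nm (h : Cx p D σ v f μ t) (hn : Vx D μ t n I) (hn' : Vx D μ t n' I')
    (k : ZI μ (fun x => I (-x)) I') : σ n v ∉ Dm D.U σ v n' :=
  (fr_of h.cd).not_mem h.md h.cd.long (h.z (h.vx0' hn) hn' k)

end Vale.Agent.P183S1
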