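import Vale.Agent.P183S1.Lin
import Vale.Agent.P183BD.BNG
import Vale.Agent.P183M.D2

/-!
Waists; the rules for three groups.
-/

set_option linter.unusedSectionVars false
set_option linter.unusedVariables false

namespace Vale.Agent.P183S1

open Matrix Subgroup Vale.Agent.P240.H195 Vale.Agent.P183CR Vale.Agent.P183M

variable {G G' : Type} [Group G] [Finite G] [Group G'] [Finite G'] {p : ℕ}

lemma sylow_in {B N U M P : Subgroup G} {S : Set G} (h : SBP p B N U S) (hU : U ≤ M) (hP : P ≤ M)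
    (k : IsPGroup p P) : ∃ m ∈ M, ∀ x ∈ P, m⁻¹ * x * m ∈ U := by
  have : Fact p.Prime := ⟨h.prime⟩
  obtain ⟨P₀, h0⟩ := (h.pgroup.comap_subtype (K := M)).exists_le_sylow
  obtain ⟨P₁, h1⟩ := (k.comap_subtype (K := M)).exists_le_sylow
  have h2 : (P₀ : Subgroup M).map M.subtype = U := P183BD.eq_U_of_le h (P₀.2.map _)
    fun u hu => ⟨⟨u, hU hu⟩, h0 hu, rfl⟩
  obtain ⟨g, hg⟩ := MulAction.exists_smul_eq M P₁ P₀
  refine ⟨g⁻¹, inv_mem g.2, fun x hx => ?_⟩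
  rw [← h2, ← hg, inv_inv]
  exact ⟨g * ⟨x, hP hx⟩ * g⁻¹, ⟨⟨x, hP hx⟩, h1 hx, rfl⟩, rfl⟩

variable {K L : Type} [Field K] [Field L] {d n : ℕ}

/-- images of coordinate subspaces -/
def Im (τ : G →* Matrix (Fin d) (Fin d) K) (g : G) (J : Fin d → Prop) : Submodule K (Fin d → K) :=
  (Co K J).map (Matrix.toLin' (τ g))

lemma mem_Im {τ : G →* Matrix (Fin d) (Fin d) K} {g : G} {J : Fin d → Prop} {x : Fin d → K} :
    x ∈ Im τ g J ↔ τ g⁻¹ *ᵥ x ∈ Co K J :=
  ⟨fun ⟨y, hy, e⟩ => by rw [← e, toLin'_apply, inv_mul_vec]; exact hy,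
    fun k => ⟨_, k, by rw [toLin'_apply, mul_inv_vec]⟩⟩

lemma Im_mono {τ : G →* Matrix (Fin d) (Fin d) K} {g : G} {J J' : Fin d → Prop}
    (h : ∀ a, J a → J' a) : Im τ g J ≤ Im τ g J' :=
  Submodule.map_mono fun _ hx a ha => hx a fun k => ha (h a k)

lemma Im_mul {τ : G →* Matrix (Fin d) (Fin d) K} {g m : G} {J : Fin d → Prop} (h : m ∈ SC τ J) :
    Im τ (g * m) J = Im τ g J := Submodule.ext fun x => by
  rw [mem_Im, mem_Im, _root_.mul_inv_rev, mul_vec]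
  exact ⟨fun k => mul_inv_vec τ m (τ g⁻¹ *ᵥ x) ▸ mem_SC.1 h _ k, mem_SC.1 (inv_mem h) _⟩

lemma ee_Im {τ : G →* Matrix (Fin d) (Fin d) K} {g : G} {J : Fin d → Prop} {a : Fin d} (h : J a) :
    τ g *ᵥ ee a ∈ Im τ g J := ⟨_, ee_mem h, rfl⟩

/-- `s` moves the line fixed by `U` -/
def NS (U : Subgroup G) (τ : G →* Matrix (Fin n) (Fin n) L) (s : G) : Prop :=
  ∃ v, v ≠ 0 ∧ (∀ u ∈ U, τ u *ᵥ v = v) ∧ s ∉ LS τ v

/-- `g` conjugates the image of `U` into `U'` -/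
def Cj (U : Subgroup G) (U' : Subgroup G') (ψ : G →* G') (g : G') : Prop :=
  ∀ u ∈ U, g⁻¹ * ψ u * g ∈ U'

variable {B N U : Subgroup G} {S : Set G} {B' N' U' : Subgroup G'} {S' : Set G'} {ψ : G →* G'}

lemma Cj.fix {R : Type} [CommRing R] {τ : G' →* Matrix (Fin n) (Fin n) R} {g : G'}
    (h : Cj U U' ψ g) {v : Fin n → R} (hv : ∀ u ∈ U', τ u *ᵥ v = v) :
    ∀ u ∈ U, (τ.comp ψ) u *ᵥ (τ g *ᵥ v) = τ g *ᵥ v := fun u hu => by
  conv_rhs => rw [← hv _ (h u hu)]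
  rw [MonoidHom.comp_apply, ← mul_vec, ← mul_vec]
  congr 2
  group

lemma exists_cj (h : SBA p B N U S) (h' : SBA p B' N' U' S') {τ : G' →* Matrix (Fin d) (Fin d) K}
    {J : Fin d → Prop} (hJ : U' ≤ SC τ J) {g : G'} (hE : Inv (mrep (τ.comp ψ)) U (Im τ g J)) :
    ∃ g', Cj U U' ψ g' ∧ Im τ g J = Im τ g' J := by
  obtain ⟨m, hm, k⟩ := sylow_in h'.toSBP hJ
    (P := U.map ((MulAut.conj g⁻¹).toMonoidHom.comp ψ)) (by
      rintro _ ⟨u, hu, rfl⟩
      refine mem_SC.2 fun x hx => ?_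
      have := mem_Im.1 (hE u hu _ ⟨x, hx, rfl⟩)
      simpa [mrep_apply, ← mul_vec, mul_assoc] using this) (h.pgroup.map _)
  refine ⟨g * m, fun u hu => ?_, (Im_mul hm).symm⟩
  simpa [mul_assoc] using k _ ⟨u, hu, rfl⟩

lemma exists_cj' (h : SBA p B N U S) (h' : SBA p B' N' U' S') (ψ : G →* G') :
    ∃ g, Cj U U' ψ g :=
  let ⟨g, k⟩ := P183BD.conj_le h'.toSBP (h.pgroup.map ψ)
  ⟨g, fun u hu => k _ ⟨u, hu, rfl⟩⟩

lemma vec_ne {τ : G →* Matrix (Fin n) (Fin n) L} {v : Fin n → L} (hv : v ≠ 0) (g : G) :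
    τ g *ᵥ v ≠ 0 := fun k => hv (by rw [← inv_mul_vec τ g v, k, mulVec_zero])

lemma ee_ne0 (a : Fin d) : (ee a : Fin d → K) ≠ 0 := fun k => by
  simpa [ee_self] using congrFun k a

variable [CharP L p]

lemma NS.not_mem (h : SBA p B N U S) {τ : G →* Matrix (Fin n) (Fin n) L} (hτ : AI τ) {s : G}
    (k : NS U τ s) {v : Fin n → L} (hv : v ∈ fixS (mrep τ) U) : v ≠ 0 → s ∉ lineStab (mrep τ) v := by
  obtain ⟨x, h1, h2, h3⟩ := k
  obtain ⟨c, rfl⟩ := fix_vec h hτ h1 h2 hv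
  rintro h4 ⟨e, he⟩
  refine h3 ⟨e, smul_right_injective _ (left_ne_zero_of_smul h4) ?_⟩
  rw [mrep_apply, mulVec_smul, smul_comm] at he
  exact he

theorem waist (h : SBA p B N U S) (h' : SBA p B' N' U' S') {τ : G' →* Matrix (Fin n) (Fin n) L}
    (hτ : AI (τ.comp ψ)) {s : G'} (hs : NS U' τ s) {ρ : G' →* Matrix (Fin d) (Fin d) K}
    {J : Fin d → Prop} (hJ : ∀ P, B' ≤ P → s ∉ P → P ≤ SC ρ J) :
    ∃ A, (∀ g, Cj U U' ψ g → A = Im ρ g J) ∧
      ∀ x, x ∉ Stab (mrep (ρ.comp ψ)) A → NS U (τ.comp ψ) x := by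
  obtain ⟨v, h1, h2, h3⟩ := hs
  obtain ⟨g0, h0⟩ := exists_cj' h h' ψ
  have hP : LS τ v ≤ SC ρ J := hJ _ (h'.toSBP.le_lineStab
    (h'.good_of_absIrr (hτ.of_comp.absIrr (pos_of_ne h1))) h2 h1) h3
  refine ⟨Im ρ g0 J, fun g hg => ?_, fun x hx => ⟨_, vec_ne h1 g0, h0.fix h2, fun ⟨c, hc⟩ => hx ?_⟩⟩
  · obtain ⟨c, hc⟩ := fix_vec h hτ (vec_ne h1 g0) (h0.fix h2) (hg.fix h2)
    have h4 : c ≠ 0 := fun e => vec_ne h1 g (by rw [hc, e, zero_smul])
    rw [← Im_mul (hP (P183K.Lift.inv_mul_mem_LS (c := Units.mk0 c h4) hc)), mul_inv_cancel_left]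
  · have h4 := hP (P183K.Lift.inv_mul_mem_LS (a := g0) (b := ψ x * g0) (c := c)
      (by rw [mul_vec]; exact hc))
    rintro _ ⟨y, hy, rfl⟩
    refine mem_Im.2 ?_
    simpa [mrep_apply, ← mul_vec, mul_assoc] using mem_SC.1 h4 y hy

omit [CharP L p]
variable [CharP K p]

lemma not_fix (h : SBA p B N U S) {ρ : G' →* Matrix (Fin d) (Fin d) K} (hρ : AI (ρ.comp ψ))
    {g : G'} {J : Fin d → Prop} {a b : Fin d} (hab : a ≠ b) (ha : J a) (hb : J b) :
    ¬ Im ρ g J ≤ fixS (mrep (ρ.comp ψ)) U := fun k => by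
  obtain ⟨c, hc⟩ := fix_vec h hρ (vec_ne (ee_ne0 a) g) (k (ee_Im ha)) (k (ee_Im hb))
  have := congrFun (congrArg (ρ g⁻¹ *ᵥ ·) hc) b
  simp only [inv_mul_vec, mulVec_smul] at this
  simp [ee_self, ee_ne hab.symm] at this

section form

variable {F F0 K0 : Type} [Field F] [Field F0] [Field K0] {d' : ℕ} {D : Dat G F F0 d}
  {D' : Dat G' K K0 d'}

/-- the functional `β x ·` -/
def bf (D : Dat G F F0 d) (x : Fin d → F) : Module.Dual F (Fin d → F) where
  toFun := D.β x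
  map_add' := D.β_add_right x
  map_smul' c y := D.β_smul_right c x y

lemma co_orth (h : CD p D) {J : Fin d → Prop} (hJ : ∀ a, J a → ¬ D.Mid a ∧ ¬ J a.rev)
    {x y : Fin d → F} (hx : x ∈ Co F J) (hy : y ∈ Co F J) : D.β x y = 0 := by
  rw [Dat.β, dotProduct]
  refine Finset.sum_eq_zero fun a _ => ?_
  by_cases ha : J a
  · rw [← D.β_ee_left, h.β_ee_eq (hJ a ha).1, hy _ (hJ a ha).2, mul_zero, mul_zero]
  · simp [hx a ha]

/-- middle nodes -/
def MidN (m : ℕ) (dt : Prop) (t : ℕ) : Prop := 2 ≤ t ∧ t + 2 ≤ m ∧ (dt → t + 3 ≤ m)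

/-- the rules for three groups of form type -/
structure TrF (m : ℕ) (dt : Prop) (S S' : ℕ → Prop) (i : ℕ) : Prop where
  mid : ∀ t, S t → MidN m dt t → S' (t - 1) ∧ (t + 2 < m → S' (t + 1))
  uniq : ∀ t t', S t → S t' → MidN m dt t → MidN m dt t' → t = t'
  tail : ∀ t, S t → 2 ≤ t → t < m → ¬ MidN m dt t → ∃ t', MidN m dt t' ∧ S' t'
  two : i = 1 → S 1 → S' 2

theorem trF [CharP L p] (h : CDF p D) (h' : CDF p D') (hm : 6 ≤ D.m) (hm' : 4 ≤ D'.m)
    (hρ : AI (D'.ρ.comp ψ)) {τ : G' →* Matrix (Fin n) (Fin n) L} (hτ : AI (τ.comp ψ)) {i : ℕ}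
    (h1 : 0 < i) (h2 : i < D'.m) (hs : NS D'.U τ (D'.nd i)) :
    TrF D.m D.dty (fun t => NS D.U (D'.ρ.comp ψ) (D.nd t)) (fun t => NS D.U (τ.comp ψ) (D.nd t))
      i := by
  obtain ⟨A, a1, a2⟩ := waist h.sba h'.sba hτ hs fun P k k' => le_A0 h' (by omega) k h2 k'
  obtain ⟨g, hg⟩ := exists_cj' h.sba h'.sba ψ
  have hd := h'.le_d
  set σ := mrep (D'.ρ.comp ψ) with hσ
  set v := D'.ρ g *ᵥ ee D'.z with hv
  have e1 : ∀ a x, σ a x = D'.ρ (ψ a) *ᵥ x := fun _ _ => rfl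
  have e2 : ∀ a b, bf D' v (σ (a⁻¹ * b) v) = D'.β (σ a v) (σ b v) := fun a b => by
    rw [rho_mul, e1 a, h'.toCD.inv', e1, map_inv]
    rfl
  have hv1 : v ∈ fixS σ D.U := hg.fix fun u hu => h'.toCD.fix_z hu
  have hv0 : v ≠ 0 := vec_ne (ee_ne0 _) g
  have md : Md1 D.B D.U σ v (bf D' v) :=
    ⟨h.sba.good_of_absIrr (hρ.absIrr (by omega)), hv1, hv0, fun u hu => LinearMap.ext fun x => by
      rw [dual_app, e1, map_inv]
      exact (h'.toCD.inv' _ v x).symm.trans (congrArg (D'.β · x) (hv1 u hu)),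
    fun k => hv0 (h'.toCD.eq_zero_of_β fun x => h'.toCD.β_symm (LinearMap.congr_fun k x))⟩
  have e3 : ∀ a b, Z D.U σ v (bf D' v) a b → ∀ x ∈ Dm D.U σ v b, D'.β (σ a v) x = 0 :=
    fun a b k x hx => (orbS_le (W := LinearMap.ker (bf D' (σ a v))) fun u hu => by
      have := k u hu
      rw [mul_assoc, e2, rho_mul] at this
      exact this) hx
  have symm : ∀ a b, Z D.U σ v (bf D' v) a b → Z D.U σ v (bf D' v) b a := fun a b k u hu => by
    have := k u⁻¹ (inv_mem hu)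
    rw [show a⁻¹ * u⁻¹ * b = (u * a)⁻¹ * b by group, e2] at this
    rw [mul_assoc, e2]
    exact h'.toCD.β_symm this
  have e4 : ∀ a, Z D.U σ v (bf D' v) a a → ∃ g' J, Cj D.U D'.U ψ g' ∧ Dm D.U σ v a = Im D'.ρ g' J ∧
      ((∃ j ≤ D'.m, J = fun a => a.val < j) ∨
        (D'.dty ∧ J = fun a => a.val + 1 < D'.m ∨ a.val = D'.m)) := fun a k => by
    have k1 : D'.TS (Dm D.U σ v a) := h'.toCD.ts_span (by omega) (by
      rintro _ ⟨u, hu, rfl⟩
      simp only [e1, hv, ← mul_vec]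
      exact h'.toCD.sing_pt (by omega) _) (by
      rintro _ ⟨u, hu, rfl⟩ _ ⟨u', hu', rfl⟩
      have := k _ (mul_mem (inv_mem hu) hu')
      rw [show a⁻¹ * (u⁻¹ * u') * a = (u * a)⁻¹ * (u' * a) by group, e2, rho_mul, rho_mul] at this
      exact this)
    have k2 : Inv σ D.U (Dm D.U σ v a) := inv_orbS _ _
    obtain ⟨g', j, hj, e | ⟨hd, e⟩⟩ := h'.witt _ k1
    · obtain ⟨g'', k3, k4⟩ := exists_cj h.sba h'.sba (J := fun a => a.val < j) (g := g')
        ((fr_of h').U_le fun a b k e => Nat.lt_trans k e) (by rw [e] at k2; exact k2)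
      exact ⟨g'', _, k3, e.trans k4, Or.inl ⟨j, hj, rfl⟩⟩
    · obtain ⟨g'', k3, k4⟩ := exists_cj h.sba h'.sba (g := g') (U_le_ex h' hd)
        (by rw [e] at k2; exact k2)
      exact ⟨g'', _, k3, e.trans k4, Or.inr ⟨hd, rfl⟩⟩
  have self : ∀ a, σ a v ∈ Dm D.U σ v a := fun a => self_mem_orbS _ _
  have ws : Ws D.U σ v (bf D' v) A := by
    refine ⟨fun a b ha hb => ?_, fun a b k1 k2 k3 => ?_⟩
    · rw [a1 g hg, mem_Im] at ha hb
      rw [e2, ← h'.inv g⁻¹]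
      refine co_orth h'.toCD (fun c hc => ⟨A0_nm h' h2 hc, fun k => ?_⟩) ha hb
      have := rev_val c
      unfold A0 at hc k
      by_cases hd : D'.dty
      · have := (h'.dzero hd).1
        omega
      · simp only [hd, false_and, false_or, not_false_iff, true_and] at hc k
        omega
    · obtain ⟨g', J, c1, c2, c3⟩ := e4 b k1
      by_cases c4 : ∀ c, J c → A0 D' i c
      · exact Or.inl (a1 g' c1 ▸ Im_mono c4 (c2 ▸ self b))
      by_cases c5 : ∀ c, A0 D' i c → J c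
      · exact Or.inr (a1 g' c1 ▸ c2 ▸ Im_mono c5)
      refine absurd ?_ k3
      obtain ⟨x, x1⟩ := not_forall.1 c4
      obtain ⟨y, y1⟩ := not_forall.1 c5
      have hd : D'.dty := by
        by_contra hd
        rcases c3 with ⟨j, hj, rfl⟩ | c3
        · simp only [A0, hd, false_and, false_or, not_false_iff, true_and] at x1 y1
          omega
        · exact hd c3.1
      have c6 := (h'.dzero hd).1
      rw [c2, mem_Im]
      intro c hc
      have c7 := rev_val c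
      have c8 : J c.rev := by
        rcases c3 with ⟨j, hj, rfl⟩ | ⟨-, rfl⟩ <;> simp only [A0, hd, true_and] at x1 y1 hc ⊢ <;>
          omega
      have c9 : ¬ D'.Mid c.rev := by
        rw [mid_iff]
        omega
      have := h'.toCD.β_symm (e3 a b k2 _ (c2 ▸ ee_Im c8))
      rw [h'.toCD.inv', h'.toCD.β_ee_eq c9, Fin.rev_rev] at this
      exact (mul_eq_zero.1 this).resolve_left (by simpa using (h'.J_unit _ c9).ne_zero)
  have big : ¬ A ≤ fixS σ D.U := a1 g hg ▸ not_fix h.sba hρ (a := ⟨0, by omega⟩)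
    (b := ⟨1, by omega⟩) (by simp) (by unfold A0; by_cases hd : D'.dty <;> simp [hd] <;> omega)
    (by unfold A0; by_cases hd : D'.dty <;> simp [hd] <;> omega)
  have cx : ∀ t μ s, t < D.m → NS D.U (D'.ρ.comp ψ) (D.nd t) → μ ≤ D.m → (D.dty → μ + 1 ≤ D.m) →
      s ≤ μ → (∀ a : Fin d, Cr μ a → (A0 D t a ↔ a.val < s)) → Cx p D σ v (bf D' v) μ s :=
    fun t μ s k1 k2 k3 k4 k5 k6 => ⟨h, md, k3, k4, k5, ⟨_, fun a => A0_nm h k1, k6,
      le_A0 h (by omega) (md.le h.sba) k1 (k2.not_mem h.sba hρ hv1 hv0)⟩, symm⟩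
  have hle := h.le_d
  have cx' : ∀ t, NS D.U (D'.ρ.comp ψ) (D.nd t) → t + 2 ≤ D.m → (D.dty → t + 3 ≤ D.m) →
      Cx p D σ v (bf D' v) (t + 2) (t + 1) := fun t k k1 k2 =>
    cx t _ _ (by omega) k k1 k2 (by omega) fun a ha => by
      unfold A0
      by_cases hd : D.dty
      · have := k2 hd
        simp only [hd, true_and]
        omega
      · simp only [hd, false_and, false_or, not_false_iff, true_and]
        omega
  have hi : ∀ t, NS D.U (D'.ρ.comp ψ) (D.nd t) → MidN D.m D.dty t → Hi p D σ A (t + 1) :=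
    fun t k k' => (cx' t k k'.2.1 k'.2.2).mid ws (by have := k'.1; omega) le_rfl
  refine ⟨fun t k k' => ?_, fun t t' k1 k2 k3 k4 => ?_, fun t k k1 k2 k3 => ?_, fun e k => ?_⟩
  · have := k'.1
    have := k'.2.1
    exact ⟨a2 _ fun e => big ((hi t k k').nd h (by omega) (by omega) (by omega) e),
      fun k'' => a2 _ fun e => big ((hi t k k').nd h (by omega) (by omega) (by omega) e)⟩
  · by_contra e
    have := k3.2.1
    have := k4.2.1
    exact big ((hi t k1 k3).two h (hi t' k2 k4) (by omega) (by omega) (by omega))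
  · obtain ⟨s, hs⟩ : ∃ s, D.m = s + 4 := ⟨D.m - 4, by omega⟩
    have c1 : Ho p D σ A (s + 1) := (cx t (s + 3) (s + 3) k2 k (by omega) (by omega) le_rfl
      fun a ha => by
        unfold MidN at k3
        unfold A0
        unfold Cr at ha
        by_cases hd : D.dty
        · have := (h.dzero hd).1
          simp only [hd, true_and, true_imp_iff] at k3 ⊢
          omega
        · simp only [hd, false_and, false_or, not_false_iff, true_and, false_imp_iff,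
            and_true] at k3 ⊢
          omega).tail ws (by omega) (by omega)
    by_contra hc
    have c2 : ∀ t, MidN D.m D.dty t → D.nd t ∈ Stab σ A := fun t e =>
      not_not.1 fun e' => hc ⟨t, e, a2 _ e'⟩
    have c3 := (c1.step h (by omega) (c2 _ ⟨by omega, by omega, fun _ => by omega⟩)).step h
      (by omega) (c2 _ ⟨by omega, by omega, fun _ => by omega⟩)
    by_cases hd : D.dty
    · exact big (c3.all h (Or.inr ⟨hd, by omega⟩))
    · exact big ((c3.step h (by omega) (c2 _ ⟨by omega, by omega, fun e => absurd e hd⟩)).all h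
        (Or.inl (by omega)))
  · refine a2 _ fun e' => big (((cx' 1 k (by omega) (by omega)).two le_rfl fun a ha => ?_).nd h
      (by omega) (by omega) (Or.inr rfl) e')
    obtain ⟨g', J, c1, c2, c3⟩ := e4 a ha
    by_cases c5 : ∀ c, A0 D' i c → J c
    · exact Or.inr (a1 g' c1 ▸ c2 ▸ Im_mono c5)
    obtain ⟨y, y1⟩ := not_forall.1 c5
    have c6 : y.val ≤ 1 ∧ ¬ J y := by
      unfold A0 at y1
      by_cases hd : D'.dty <;> simp [hd] at y1 <;> refine ⟨by omega, y1.2⟩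
    obtain ⟨x, x1, x2⟩ := c2 ▸ self a
    have c7 : x = x D'.z • ee D'.z := funext fun c => by
      by_cases e : c = D'.z
      · simp [e, ee_self]
      · have c8 : c.val ≠ 0 := fun e' => e (Fin.ext (e'.trans h'.z0.symm))
        rw [Pi.smul_apply, ee_ne e, smul_zero]
        refine x1 c ?_
        rcases c3 with ⟨j, hj, rfl⟩ | ⟨-, rfl⟩ <;> simp only at c6 ⊢ <;> omega
    rw [← x2, c7, map_smul]
    exact Or.inl (Submodule.smul_mem _ _ (c1.fix fun u hu => h'.toCD.fix_z hu))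

end form

section lin

variable {F F0 K0 : Type} [Field F] [Field F0] [Field K0] {d' : ℕ} {D : Dat G (F × F) F0 d}
  {D' : Dat G' (K × K) K0 d'}

lemma wl_dual {V : Type} [AddCommGroup V] [Module K V] [FiniteDimensional K V]
    {σ : Representation K G V} {A : Submodule K V} (h : ∀ E, Inv σ U E → E ≤ A ∨ A ≤ E)
    (φ : Module.Dual K V) (k : φ ∉ A.dualAnnihilator) : A.dualAnnihilator ≤ orbS σ.dual U φ := by
  rcases h (orbS σ.dual U φ).dualCoannihilator fun u hu x hx =>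
    (Submodule.mem_dualCoannihilator _).2 fun χ hχ => by
      have := (Submodule.mem_dualCoannihilator _).1 hx _ (inv_orbS U φ _ (inv_mem hu) χ hχ)
      rwa [dual_app, inv_inv] at this with e | e
  · rw [← Subspace.dualCoannihilator_dualAnnihilator_eq (W := orbS σ.dual U φ)]
    exact Submodule.dualAnnihilator_anti e
  · exact absurd ((Submodule.mem_dualAnnihilator _).2 fun x hx =>
      (Submodule.mem_dualCoannihilator _).1 (e hx) _ (self_mem_orbS U φ)) k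

/-- the rules for three linear groups -/
def TrL (d : ℕ) (S S' : ℕ → Prop) : Prop := ∀ t, S t → 1 ≤ t → t + 3 ≤ d →
  (∃ s, s + 4 ≤ d ∧ S' s ∧ S' (s + 2)) ∧ ∀ s, s + 1 < d → S s → s = t

theorem trL [CharP L p] (h : CDL p D) (h' : CDL p D') (hρ : AI (D'.ρ1.comp ψ))
    {τ : G' →* Matrix (Fin n) (Fin n) L} (hτ : AI (τ.comp ψ)) {i : ℕ}
    (h1 : 1 ≤ i) (h2 : i + 3 ≤ d') (hs : NS D'.U τ (D'.nd i)) :
    TrL d (fun t => NS D.U (D'.ρ1.comp ψ) (D.nd t)) (fun t => NS D.U (τ.comp ψ) (D.nd t)) := by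
  obtain ⟨A, a1, a2⟩ := waist h.sba h'.sba hτ hs fun P k k' => le_lt h' k k'
  obtain ⟨g, hg⟩ := exists_cj' h.sba h'.sba ψ
  have gd := h.sba.good_of_absIrr (hρ.absIrr (by omega))
  obtain ⟨v, hv, hv0⟩ := h.sba.toSBP.exists_fix gd.irr
  obtain ⟨f, hf, hf0⟩ := h.sba.toSBP.exists_fix gd.dual.irr
  have cmp : ∀ E, Inv (mrep (D'.ρ1.comp ψ)) D.U E → E ≤ A ∨ A ≤ E := fun E hE => by
    obtain ⟨g', j, -, rfl⟩ := h'.witt E
    obtain ⟨g'', k3, k4⟩ := exists_cj h.sba h'.sba (J := fun a => a.val < j) (g := g')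
      ((frL h').U_le fun a b k e => Nat.lt_trans k e) hE
    rw [a1 g'' k3, ← Im, k4]
    refine (le_total j (i + 1)).imp (fun e => Im_mono fun a k => ?_)
      fun e => Im_mono fun a k => ?_ <;> omega
  have w1 : WL D.U (mrep (D'.ρ1.comp ψ)) A :=
    ⟨fun x hx => (cmp _ (inv_orbS _ x)).resolve_left fun e => hx (e (self_mem_orbS _ x)),
      a1 g hg ▸ not_fix h.sba hρ (a := ⟨0, by omega⟩) (b := ⟨1, by omega⟩) (by simp) (by simp)
        (by simp; omega)⟩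
  have w2 : WL D.U (mrep (D'.ρ1.comp ψ)).dual A.dualAnnihilator := by
    refine ⟨wl_dual cmp, fun k => ?_⟩
    let φ : Fin d' → Module.Dual K (Fin d' → K) := fun a =>
      LinearMap.proj a ∘ₗ mulVecLin (D'.ρ1 g⁻¹)
    have e1 : ∀ a b, φ a (D'.ρ1 g *ᵥ ee b) = ee b a := fun a b =>
      congrFun (inv_mul_vec D'.ρ1 g (ee b)) a
    have e2 : ∀ a : Fin d', i < a.val → φ a ∈ fixS (mrep (D'.ρ1.comp ψ)).dual D.U := fun a ha =>
      k ((Submodule.mem_dualAnnihilator _).2 fun x hx => mem_Im.1 (a1 g hg ▸ hx) a (by omega))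
    obtain ⟨c, hc⟩ := h.sba.toSBP.fix_line gd.dual (e2 ⟨i + 1, by omega⟩ (by simp)) (fun e => by
      simpa [e, ee_self] using e1 ⟨i + 1, by omega⟩ ⟨i + 1, by omega⟩)
      (e2 ⟨i + 2, by omega⟩ (by simp))
    have e3 := e1 ⟨i + 2, by omega⟩ ⟨i + 2, by omega⟩
    rw [hc, LinearMap.smul_apply, e1, ee_self, ee_ne (by simp), smul_zero] at e3
    exact zero_ne_one e3
  intro t k k1 k2
  obtain ⟨⟨s, c1, c2, c3⟩, c4⟩ := linear h ⟨gd, hv, hv0, hf, hf0⟩ w1 w2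
    (k.not_mem h.sba hρ hv hv0) k1 k2
  exact ⟨⟨s, c1, a2 _ c2, a2 _ c3⟩, fun s e e' => not_not.1 fun e'' =>
    e'.not_mem h.sba hρ hv hv0 (c4 s e e'')⟩

end lin

end Vale.Agent.P183S1
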