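import Vale.Agent.P183S1.Sg

/-!
The zigzag argument for groups of form type.
-/

set_option linter.unusedSectionVars false
set_option linter.unusedVariables false

namespace Vale.Agent.P183S1

open Matrix Subgroup Vale.Agent.P240.H195 Vale.Agent.P183CR Vale.Agent.P183M

variable {d : ℕ} {G : Type} [Group G] [Finite G] {F F0 : Type} [Field F] [Field F0] {p : ℕ}
  {D : Dat G F F0 d} {K V : Type} [Field K] [AddCommGroup V] [Module K V]
  {σ : Representation K G V} {v : V} {f : Module.Dual K V} {A : Submodule K V}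

lemma fx_rev {a b : Fin d} (h : Fx p D.ρ σ A (D.Pat b.rev a.rev)) : Fx p D.ρ σ A (D.Pat a b) :=
  h.mono fun i j k => by
    unfold Dat.Pat at *
    simp only [Fin.rev_rev]
    rcases k with k | k | ⟨rfl, k⟩
    · exact Or.inr (Or.inl k)
    · exact Or.inl k
    · exact Or.inr (Or.inr ⟨rfl, by simpa using k⟩)

lemma fx_conj {a b : Fin d} {n : G} {w : Equiv.Perm (Fin d)} (hn : D.Mon (D.ρ n) w)
    (hA : n ∈ Stab σ A) (ha : ¬ D.Mid a) (hb : ¬ D.Mid b)
    (h : Fx p D.ρ σ A (D.Pat (w a) (w b))) : Fx p D.ρ σ A (D.Pat a b) := by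
  refine h.conj (mn_of_mon hn) hA fun i x y j k1 k k2 => ?_
  have ha' : ¬ D.Mid a.rev := fun e => ha (D.mid_rev.1 e)
  have hb' : ¬ D.Mid b.rev := fun e => hb (D.mid_rev.1 e)
  have e1 : ¬ D.Mid x → i = w x := fun e => k1.resolve_right fun e' => e e'.2
  have e2 : ¬ D.Mid y → j = w y := fun e => k2.resolve_right fun e' => e e'.2
  rcases k with ⟨rfl, rfl⟩ | ⟨rfl, rfl⟩ | ⟨rfl, ⟨rfl, k⟩ | ⟨k, rfl⟩⟩
  · exact Or.inl ⟨e1 ha, e2 hb⟩
  · exact Or.inr (Or.inl ⟨hn.1.1 _ ▸ e1 hb', hn.1.1 _ ▸ e2 ha'⟩)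
  · exact Or.inr (Or.inr ⟨hn.1.1 _, Or.inl ⟨e1 ha,
      k2.elim (fun e => e ▸ (hn.1.2 y k).symm ▸ k) And.left⟩⟩)
  · exact Or.inr (Or.inr ⟨hn.1.1 _, Or.inr ⟨k1.elim (fun e => e ▸ (hn.1.2 x k).symm ▸ k) And.left,
      e2 hb⟩⟩)

lemma Fx.le {d : ℕ} {τ : G →* Matrix (Fin d) (Fin d) F} {Q : Fin d → Fin d → Prop}
    {A' : Submodule K V} (h : Fx p τ σ A' Q) (k : A ≤ A') : Fx p τ σ A Q :=
  fun g hg x hx => h g hg x (k hx)

/-- two outer blocks -/
def l1 (m t : ℕ) (a : Fin d) : ℕ :=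
  if a.val ≤ t then 0 else if d ≤ a.val + t + 1 then d else if m ≤ a.val ∧ a.val + m < d then m
    else a.val

/-- one inner block -/
def l2 (s : ℕ) (a : Fin d) : ℕ := if s ≤ a.val ∧ a.val + s < d then s else a.val

lemma pat_val {a b i j : Fin d} (k : D.Pat a b i j) : (i.val = a ∧ j.val = b) ∨
    (i.val + b + 1 = d ∧ j.val + a + 1 = d) ∨ (a.val + b + 1 = d ∧
      ((i.val = a ∧ D.m ≤ j.val ∧ j.val + D.m < d) ∨ (j.val = b ∧ D.m ≤ i.val ∧ i.val + D.m < d))) := by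
  have := rev_val a
  have := rev_val b
  simp only [Dat.Pat, mid_iff, Fin.ext_iff] at k
  omega

lemma fx1 (h : CDF p D) (hv : v ∈ fixS σ D.U) {n : G} {t : ℕ} (ht : t < D.m)
    (hn : Lv D n (l1 D.m t)) (hA : A ≤ Dm D.U σ v n) {a b : Fin d} (hab : a < b) (ha : ¬ D.Mid a)
    (hb : ¬ D.Mid b) (h1 : t < b.val) (h2 : a.val + t + 1 < d) : Fx p D.ρ σ A (D.Pat a b) := by
  obtain ⟨w, h3, h4⟩ := hn
  have := h.le_d
  refine (((fr_of h).fx hv _ (fun i j k => ?_) (fun i j ki kj => ?_) h3 h4).le hA).mono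
    fun i j k => ?_
  · have : i.val ≤ j.val := k
    have := j.2
    unfold l1
    split_ifs <;> omega
  · rw [mid_iff] at ki kj
    unfold l1
    split_ifs <;> omega
  · have : a.val < b.val := hab
    have := b.2
    have := pat_val k
    rw [mid_iff] at ha hb
    unfold l1
    split_ifs <;> omega

lemma fx2 (h : CDF p D) (hv : v ∈ fixS σ D.U) {n : G} {s : ℕ} (hs : s < D.m)
    (hn : Lv D n (l2 s)) (hA : A ≤ Dm D.U σ v n) {a b : Fin d} (hab : a < b)
    (h1 : a.val < s ∨ d ≤ b.val + s) : Fx p D.ρ σ A (D.Pat a b) := by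
  obtain ⟨w, h3, h4⟩ := hn
  have := h.le_d
  refine (((fr_of h).fx hv _ (fun i j k => ?_) (fun i j ki kj => ?_) h3 h4).le hA).mono
    fun i j k => ?_
  · have : i.val ≤ j.val := k
    unfold l2
    split_ifs <;> omega
  · rw [mid_iff] at ki kj
    unfold l2
    split_ifs <;> omega
  · have : a.val < b.val := hab
    have := b.2
    have := pat_val k
    unfold l2
    split_ifs <;> omega

/-- all root groups except one fix `A` -/
def Hi (p : ℕ) (D : Dat G F F0 d) (σ : Representation K G V) (A : Submodule K V) (t : ℕ) : Prop :=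
  ∀ a b : Fin d, a < b → ¬ D.Mid a → ¬ D.Mid b → ¬ (a.val + 1 = t ∧ b.val = t) →
    ¬ (a.val + t + 1 = d ∧ b.val + t = d) → Fx p D.ρ σ A (D.Pat a b)

/-- all root groups outside an inner block fix `A` -/
def Ho (p : ℕ) (D : Dat G F F0 d) (σ : Representation K G V) (A : Submodule K V) (s : ℕ) : Prop :=
  ∀ a b : Fin d, a < b → ¬ D.Mid a → ¬ D.Mid b → (a.val < s ∨ d ≤ b.val + s) →
    Fx p D.ρ σ A (D.Pat a b)

lemma Hi.all (h : CDF p D) {t : ℕ} (H : Hi p D σ A t)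
    (k : ∀ a b : Fin d, a.val + 1 = t → b.val = t → Fx p D.ρ σ A (D.Pat a b)) :
    A ≤ fixS σ D.U := (fr_of h).all fun a b hab ha hb => by
  by_cases h1 : a.val + 1 = t ∧ b.val = t
  · exact k a b h1.1 h1.2
  by_cases h2 : a.val + t + 1 = d ∧ b.val + t = d
  · have := rev_val a
    have := rev_val b
    exact fx_rev (k _ _ (by omega) (by omega))
  exact H a b hab ha hb h1 h2

lemma Hi.two (h : CDF p D) {t t' : ℕ} (H : Hi p D σ A t) (H' : Hi p D σ A t') (h1 : t < D.m)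
    (h2 : t' < D.m) (h3 : t ≠ t') : A ≤ fixS σ D.U := H.all h fun a b ha hb => by
  have := h.le_d
  exact H' a b (Fin.lt_def.2 (by omega)) (D.not_mid (by omega)) (D.not_mid (by omega)) (by omega)
    (by omega)

lemma Hi.nd (h : CDF p D) {t i : ℕ} (H : Hi p D σ A t) (h1 : t < D.m) (h2 : i + 1 < D.m)
    (h3 : i + 2 = t ∨ i = t) (hA : D.nd i ∈ Stab σ A) : A ≤ fixS σ D.U := H.all h fun a b ha hb => by
  have := h.le_d
  have h4 := h.mon_nd ⟨i, by omega⟩ ⟨i + 1, by omega⟩ rfl h2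
  have h5 := rf_val (a := (⟨i, by omega⟩ : Fin d)) (b := ⟨i + 1, by omega⟩) (by simp; omega)
    (by simp; omega) (by simp; omega)
  have h6 := h5 a
  have h7 := h5 b
  simp only at h6 h7
  exact fx_conj h4 hA (D.not_mid (by omega)) (D.not_mid (by omega)) (H _ _
    (Fin.lt_def.2 (by omega)) (D.not_mid (by omega)) (D.not_mid (by omega)) (by omega) (by omega))

lemma Ho.step (h : CDF p D) {s : ℕ} (H : Ho p D σ A (s + 1)) (h2 : s + 1 < D.m)
    (hA : D.nd s ∈ Stab σ A) : Ho p D σ A (s + 2) := by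
  have := h.le_d
  have h4 := h.mon_nd ⟨s, by omega⟩ ⟨s + 1, by omega⟩ rfl h2
  have h5 := rf_val (a := (⟨s, by omega⟩ : Fin d)) (b := ⟨s + 1, by omega⟩) (by simp; omega)
    (by simp; omega) (by simp; omega)
  have key : ∀ a b : Fin d, a < b → ¬ D.Mid a → ¬ D.Mid b → a.val < s + 2 →
      Fx p D.ρ σ A (D.Pat a b) := fun a b hab ha hb k => by
    by_cases k' : a.val < s + 1 ∨ d ≤ b.val + (s + 1)
    · exact H a b hab ha hb k'
    have h6 := h5 a
    have h7 := h5 b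
    have : a.val < b.val := hab
    simp only at h6 h7
    exact fx_conj h4 hA ha hb (H _ _ (Fin.lt_def.2 (by omega))
      (fun e => ha (((mn_of_mon h4).md a).1 e)) (fun e => hb (((mn_of_mon h4).md b).1 e))
      (Or.inl (by omega)))
  intro a b hab ha hb k
  have := rev_val b
  exact k.elim (key a b hab ha hb) fun k => fx_rev (key _ _ (Fin.rev_lt_rev.2 hab)
    (fun e => hb (D.mid_rev.1 e)) (fun e => ha (D.mid_rev.1 e)) (by omega))

lemma Ho.all (h : CDF p D) {s : ℕ} (H : Ho p D σ A s) (k : s = D.m ∨ (D.dty ∧ s + 1 = D.m)) :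
    A ≤ fixS σ D.U := (fr_of h).all fun a b hab ha hb => by
  by_cases k' : a.val < s ∨ d ≤ b.val + s
  · exact H a b hab ha hb k'
  have : a.val < b.val := hab
  rw [mid_iff] at ha hb
  obtain ⟨hd, hs⟩ := k.resolve_left (by omega)
  obtain ⟨h1, h2⟩ := h.dzero hd
  intro g hg x _
  have h3 : ∀ i j, ¬ (i.val = s ∧ j.val = s + 1) → D.ρ g i j = (1 : Matrix _ _ F) i j :=
    fun i j e => sub_eq_zero.1 (not_not.1 fun e' => by
      have := pat_val (hg.2 i j e')
      omega)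
  have h4 := h2 g (h.up' g hg.1 ⟨⟨fun i j e => (h3 i j (by have := Fin.lt_def.1 e; omega)).trans
    (one_apply_ne e.ne'), fun i => (h3 i i (by omega)).trans (one_apply_eq i)⟩,
    fun i j e => by rw [mid_iff] at e; omega⟩) a (by omega)
  have h5 : D.ρ g = D.ρ 1 := by
    rw [map_one]
    ext i j
    by_cases e : i.val = s ∧ j.val = s + 1
    · have := rev_val a
      rw [show i = a from Fin.ext (by omega), show j = a.rev from Fin.ext (by omega), h4,
        one_apply_ne fun e => by have := congrArg Fin.val e; omega]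
    · exact h3 i j e
  rw [h.pinj g 1 hg.1 ⟨0, by simp⟩ h5, map_one, Module.End.one_apply]

/-- a waist -/
structure Ws (U : Subgroup G) (σ : Representation K G V) (v : V) (f : Module.Dual K V)
    (A : Submodule K V) : Prop where
  orth : ∀ g g', σ g v ∈ A → σ g' v ∈ A → f (σ (g⁻¹ * g') v) = 0
  cmp : ∀ n n', Z U σ v f n' n' → Z U σ v f n n' → σ n v ∉ Dm U σ v n' →
    σ n' v ∈ A ∨ A ≤ Dm U σ v n'

variable [CharP K p] [FiniteDimensional K V] {μ t : ℕ}

lemma Cx.edge (h : Cx p D σ v f μ t) (hA : Ws D.U σ v f A) {n n' : G} {I I' : ℤ → Prop}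
    (hn : Vx D μ t n I) (hn' : Vx D μ t n' I') (k1 : ZI μ I' I') (k2 : ZI μ I I')
    (k3 : ZI μ (fun x => I (-x)) I') :
    (σ n v ∈ A → σ n' v ∈ A) ∧ (σ n' v ∉ A → A ≤ Dm D.U σ v n') := by
  have h1 := h.nm hn hn' k3
  have h2 := hA.cmp n n' (h.z hn' hn' k1) (h.z hn hn' k2) h1
  exact ⟨fun k => h2.resolve_right fun e => h1 (e k), h2.resolve_left⟩

lemma Cx.opp (h : Cx p D σ v f μ t) (hA : Ws D.U σ v f A) {n : G} (h1 : σ n v ∈ A)
    (h2 : σ (n * D.n0) v ∈ A) : False := by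
  have := hA.orth _ _ h1 h2
  rw [inv_mul_cancel_left] at this
  exact h.cd.sba.toSBP.coeff_long_ne h.md.good h.md.hv h.md.hv0 h.md.hf h.md.hf0 h.cd.long this

lemma t0 {μ : ℕ} {I I' : ℤ → Prop} (x : ℤ) (h : 1 ≤ x ∧ x ≤ μ ∧ I' x)
    (k : ∀ y, 1 ≤ y → y ≤ x → ¬ I (-y)) : ZI μ I I' :=
  Or.inl (Or.inl ⟨x, h.1, h.2.1, h.2.2, k⟩)

lemma t0' {μ : ℕ} {I I' : ℤ → Prop} (x : ℤ) (h : 1 ≤ x ∧ x ≤ μ ∧ I x)
    (k : ∀ y, 1 ≤ y → y ≤ x → ¬ I' (-y)) : ZI μ I I' :=
  Or.inr (Or.inl ⟨x, h.1, h.2.1, h.2.2, k⟩)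

lemma t1 {μ : ℕ} {I I' : ℤ → Prop} (x x' b : ℤ)
    (h : 1 ≤ x ∧ x < x' ∧ x' ≤ μ ∧ I' x ∧ I' x')
    (k : ∀ y, 1 ≤ y → y ≤ x' → I (-y) → y = b) : ZI μ I I' :=
  Or.inl (Or.inr ⟨x, x', b, h.1, h.2.1, h.2.2.1, h.2.2.2.1, h.2.2.2.2, k⟩)

lemma t1' {μ : ℕ} {I I' : ℤ → Prop} (x x' b : ℤ)
    (h : 1 ≤ x ∧ x < x' ∧ x' ≤ μ ∧ I x ∧ I x')
    (k : ∀ y, 1 ≤ y → y ≤ x' → I' (-y) → y = b) : ZI μ I I' :=
  Or.inr (Or.inr ⟨x, x', b, h.1, h.2.1, h.2.2.1, h.2.2.2.1, h.2.2.2.2, k⟩)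

lemma Cx.zx (h : Cx p D σ v f μ t) (h1 : 2 ≤ t) (h2 : t + 1 ≤ μ) : ∃ z x : G,
    Vx D μ t z (fun y => 2 ≤ y ∧ y ≤ t + 1) ∧
    Vx D μ t x (fun y => (1 ≤ y ∧ y < t) ∨ y = -(t + 1)) ∧
    (A ≤ Dm D.U σ v z → A ≤ Dm D.U σ v x → Hi p D σ A t) := by
  have := h.hμ
  have := h.le
  obtain ⟨z, z1, z2⟩ := exists_rf h.cd (α := 1) (β := t + 1) (by unfold Rg; omega)
    (by unfold Rg; omega) (by omega) (by omega)
  obtain ⟨x, x1, x2⟩ := exists_rf h.cd (α := t) (β := -(t + 1)) (by unfold Rg; omega)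
    (by unfold Rg; omega) (by omega) (by omega)
  refine ⟨z, x, mul_one z ▸ (Vx.one h.cd h.hμ h.ht).left h.cd h.hμ z1 fun y hy => ?_,
    mul_one x ▸ (Vx.one h.cd h.hμ h.ht).left h.cd h.hμ x1 fun y hy => ?_,
    fun k1 k2 a b hab ha hb e1 e2 => ?_⟩
  · unfold Rg rfZ at *
    split_ifs <;> omega
  · unfold Rg rfZ at *
    split_ifs <;> omega
  · by_cases k : t < b.val ∧ a.val + t + 1 < d
    · refine fx1 h.cd h.md.hv (by omega) (z2 _ fun a b ha hb => ?_) k1 hab ha hb k.1 k.2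
      have := enc_val a
      have := enc_val b
      have := rev_val a
      have := rev_val b
      unfold l1
      constructor <;> split_ifs <;> omega
    · have : a.val < b.val := hab
      refine fx2 h.cd h.md.hv (s := t - 1) (by omega) (x2 _ fun a b ha hb => ?_) k2 hab (by omega)
      have := enc_val a
      have := enc_val b
      have := rev_val a
      have := rev_val b
      unfold l2
      constructor <;> split_ifs <;> omega

theorem Cx.mid (h : Cx p D σ v f μ t) (hA : Ws D.U σ v f A) (h1 : 3 ≤ t) (h2 : t + 1 ≤ μ) :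
    Hi p D σ A t := by
  have := h.hμ
  obtain ⟨z, x, hz, hx, k⟩ := h.zx (A := A) (by omega) h2
  obtain ⟨o, o1, -⟩ := exists_fl h.cd (α := 1) (β := t + 1) (by unfold Rg; omega)
    (by unfold Rg; omega) (by omega) (by omega)
  obtain ⟨q, q1, -⟩ := exists_fl h.cd (α := 1) (β := 2) (by unfold Rg; omega)
    (by unfold Rg; omega) (by omega) (by omega)
  have ho : Vx D μ t (o * 1) fun y => (2 ≤ y ∧ y ≤ t) ∨ y = -1 :=
    (Vx.one h.cd h.hμ h.ht).left h.cd h.hμ o1 fun y hy => by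
      unfold Rg flZ at *
      split_ifs <;> omega
  have hr : Vx D μ t (q * z) fun y => (3 ≤ y ∧ y ≤ t + 1) ∨ y = -2 :=
    hz.left h.cd h.hμ q1 fun y hy => by
      unfold Rg flZ at *
      split_ifs <;> omega
  have hs := h.vx0 ho
  have e1 := h.edge hA hz hx
    (t0 1 (by omega) fun _ => by omega)
    (t0 1 (by omega) fun _ => by omega)
    (t0 1 (by omega) fun _ => by omega)
  have e2 := h.edge hA hx hz
    (t0 2 (by omega) fun _ => by omega)
    (t0' 1 (by omega) fun _ => by omega)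
    (t0'
    (t + 1) (by omega) fun _ => by omega)
  have e3 := h.edge hA hz hs
    (t0 1 (by omega) fun _ => by omega)
    (t0 1 (by omega) fun _ => by omega)
    (t0 1 (by omega) fun _ => by omega)
  have e4 := h.edge hA hs hr
    (t1 3 4 2 (by omega) fun _ => by omega)
    (t0' 1 (by omega) fun _ => by omega)
    (t1' 2 3 2 (by omega) fun _ => by omega)
  have e5 := h.edge hA hr ho
    (t1 2 3 1 (by omega) fun _ => by omega)
    (t1 2 3 2 (by omega) fun _ => by omega)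
    (t0 2 (by omega) fun _ => by omega)
  have e6 : σ z v ∉ A := fun e => h.opp hA (e5.1 (e4.1 (e3.1 e))) (e3.1 e)
  exact k (e2.2 e6) (e1.2 fun e => e6 (e2.1 e))

theorem Cx.two (h : Cx p D σ v f μ 2) (h2 : 3 ≤ μ)
    (hA : ∀ n, Z D.U σ v f n n → σ n v ∈ fixS σ D.U ∨ A ≤ Dm D.U σ v n) : Hi p D σ A 2 := by
  obtain ⟨z, x, hz, hx, k⟩ := h.zx (A := A) le_rfl h2
  have h1 := Vx.one h.cd h.hμ h.ht
  have h3 : ∀ n, σ n v ∈ fixS σ D.U → σ n v ∈ Dm D.U σ v 1 := fun n e => by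
    obtain ⟨c, hc⟩ := h.cd.sba.toSBP.fix_line h.md.good h.md.hv h.md.hv0 e
    rw [hc]
    exact Submodule.smul_mem _ c (by simpa [Dm] using self_mem_orbS D.U v)
  exact k ((hA z (h.z hz hz (t0 2 (by omega) fun _ => by omega))).resolve_left fun e =>
      h.nm hz h1 (t0 1 (by omega) fun _ => by omega) (h3 z e))
    ((hA x (h.z hx hx (t0 1 (by omega) fun _ => by omega))).resolve_left fun e =>
      h.nm hx h1 (t1 1 2 1 (by omega) fun _ => by omega) (h3 x e))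

/-- sign changes in the positions `α, β` -/
def Ng (α β y : ℤ) : Prop := (0 < y ∧ y ≠ α ∧ y ≠ β) ∨ y = -α ∨ y = -β

theorem Cx.tail (h : Cx p D σ v f μ μ) (hA : Ws D.U σ v f A) (h1 : 5 ≤ μ) (h2 : μ + 1 = D.m) :
    Ho p D σ A (μ - 2) := by
  have hle := h.le
  have key : ∀ α β : ℤ, 1 ≤ α → α < β → β ≤ D.m → ∃ r, Vx D μ μ r (Ng α β) ∧
      ∀ s : ℕ, s < α → Lv D r (l2 s) := fun α β k1 k2 k3 => by
    obtain ⟨r, r1, r2⟩ := exists_fl h.cd (α := α) (β := β) (by unfold Rg; omega)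
      (by unfold Rg; omega) (by omega) (by omega)
    refine ⟨r, mul_one r ▸ (Vx.one h.cd h.hμ h.ht).left h.cd h.hμ r1 fun y hy => ?_,
      fun s hs => r2 _ s fun a ha => ?_⟩
    · unfold Rg flZ Ng at *
      split_ifs <;> omega
    · have := enc_val a
      have := rev_val a
      have := h.cd.le_d
      unfold l2
      constructor <;> split_ifs <;> omega
  obtain ⟨y, hy, y2⟩ := key (μ - 1) μ (by omega) (by omega) (by omega)
  obtain ⟨a, ha, -⟩ := key 1 (μ + 1) (by omega) (by omega) (by omega)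
  obtain ⟨c, hc, -⟩ := key (μ - 2) (μ - 1) (by omega) (by omega) (by omega)
  obtain ⟨e, he, -⟩ := key 1 μ (by omega) (by omega) (by omega)
  have hb := h.vx0 he
  unfold Ng at hy ha hb hc he
  have e1 := h.edge hA ha hy
    (t0 1 (by omega) fun _ => by omega)
    (t0' 2 (by omega) fun _ => by omega)
    (t0 1 (by omega) fun _ => by omega)
  have e2 := h.edge hA hy ha
    (t1 2 3 1 (by omega) fun _ => by omega)
    (t0 2 (by omega) fun _ => by omega)
    (t1' (μ - 1) μ 1 (by omega) fun _ => by omega)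
  have e3 := h.edge hA ha hb
    (t0 1 (by omega) fun _ => by omega)
    (t1 1 μ 1 (by omega) fun _ => by omega)
    (t0 1 (by omega) fun _ => by omega)
  have e4 := h.edge hA ha hc
    (t0 1 (by omega) fun _ => by omega)
    (t0' 2 (by omega) fun _ => by omega)
    (t0 1 (by omega) fun _ => by omega)
  have e5 := h.edge hA hc he
    (t1 2 3 1 (by omega) fun _ => by omega)
    (t0 2 (by omega) fun _ => by omega)
    (t1' (μ - 2) (μ - 1) 1 (by omega) fun _ => by omega)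
  have e6 := e1.2 fun k => h.opp hA (e5.1 (e4.1 (e2.1 k))) (e3.1 (e2.1 k))
  exact fun a b hab _ _ k => fx2 h.cd h.md.hv (by omega) (y2 _ (by omega)) e6 hab k

end Vale.Agent.P183S1
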